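import Vale.Agent.P098.Regularity.B2.Nondeg

/-!
P098, block B2: every global minimizer has a regular representative.
-/

open MeasureTheory Filter
open scoped Topology ContDiff NNReal

namespace Vale.Agent.P098

/-- Representatives with constants depending only on the dimension. -/
theorem representativeBlock (d : ℕ) : RepresentativeBlock d := by
  obtain ⟨k⟩ := nonempty_kern d
  exact ⟨k.lipConst, k.lowConst, k.lowConst_pos, fun u hu => ⟨k.rep u, k.rep_ae_eq hu,
    { minim := hu.congr_ae (k.rep_ae_eq hu)
      nonneg := k.rep_nonneg hu
      lip := k.lipschitz_rep hu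
      smooth := k.contDiffOn_rep hu
      harmonic := fun x hx => k.harmonic_rep hu hx
      nondeg := fun x hx r hr => k.nondeg_rep hu hx hr }⟩⟩

end Vale.Agent.P098
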