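import Vale.Agent.P098.Regularity.B3.Lipschitz

/-!
P098, blocks B1 and B2: averages against smooth kernels, mollification in `L¹`, and the chain rule
for weak gradients, in particular for positive parts.
-/

open MeasureTheory Filter Metric
open scoped Topology ContDiff NNReal

namespace Vale.Agent.P098

variable {d : ℕ} {f k : Euc d → ℝ}

/-- The average `∫ k (x - y) f y` against a kernel. -/
noncomputable def avgWith (k f : Euc d → ℝ) (x : Euc d) : ℝ := ∫ y, k (x - y) * f y

lemma avgWith_eq_convolution (k f : Euc d → ℝ) :
    avgWith k f = convolution k f (ContinuousLinearMap.lsmul ℝ ℝ) volume :=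
  funext fun x => by rw [convolution_lsmul_swap]; rfl

lemma integrable_kernel_mul (hk : Continuous k) (hs : HasCompactSupport k)
    (hf : LocallyIntegrable f) (x : Euc d) : Integrable fun y => k (x - y) * f y := by
  have h := hs.convolutionExists_left (μ := volume) (ContinuousLinearMap.lsmul ℝ ℝ) hk hf x
  simpa [ConvolutionExistsAt] using h.integrable_swap

lemma contDiff_avgWith (hk : ContDiff ℝ ∞ k) (hs : HasCompactSupport k)
    (hf : LocallyIntegrable f) : ContDiff ℝ ∞ (avgWith k f) := by
  rw [avgWith_eq_convolution]
  exact hs.contDiff_convolution_left _ hk hf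

lemma pd_avgWith (hk : ContDiff ℝ ∞ k) (hs : HasCompactSupport k) (hf : LocallyIntegrable f)
    (i : Fin d) (x : Euc d) : pd i (avgWith k f) x = avgWith (pd i k) f x := by
  have h1 : ContDiff ℝ 1 k := hk.of_le (by simp)
  have hder := hs.hasFDerivAt_convolution_left (ContinuousLinearMap.lsmul ℝ ℝ)
    (μ := volume) h1 hf x
  rw [avgWith_eq_convolution, pd, hder.fderiv, convolution_def]
  have hint : Integrable fun t => ((ContinuousLinearMap.lsmul ℝ ℝ).precompL (Euc d))
      (fderiv ℝ k t) (f (x - t)) :=
    (hs.fderiv ℝ).convolutionExists_left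
      (L := (ContinuousLinearMap.lsmul ℝ ℝ : ℝ →L[ℝ] ℝ →L[ℝ] ℝ).precompL (Euc d))
      (h1.continuous_fderiv one_ne_zero) hf x
  rw [ContinuousLinearMap.integral_apply hint, avgWith,
    ← integral_sub_left_eq_self (fun y => pd i k (x - y) * f y) volume x]
  simp [pd]

lemma contDiff_pd_infty (hk : ContDiff ℝ ∞ k) (i : Fin d) : ContDiff ℝ ∞ (pd i k) :=
  (hk.fderiv_right (by simp)).clm_apply contDiff_const

lemma pd_pd_avgWith (hk : ContDiff ℝ ∞ k) (hs : HasCompactSupport k) (hf : LocallyIntegrable f)
    (i : Fin d) (x : Euc d) :
    pd i (pd i (avgWith k f)) x = avgWith (pd i (pd i k)) f x := by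
  rw [show pd i (avgWith k f) = avgWith (pd i k) f from funext (pd_avgWith hk hs hf i)]
  exact pd_avgWith (contDiff_pd_infty hk i) (hasCompactSupport_pd hs i) hf i x

/-- A reflected and translated derivative. -/
lemma pd_comp_sub (hk : ContDiff ℝ 1 k) (i : Fin d) (x y : Euc d) :
    pd i (fun z => k (x - z)) y = -pd i k (x - y) := by
  have h : HasFDerivAt (fun z : Euc d => k (x - z))
      ((fderiv ℝ k (x - y)).comp (-ContinuousLinearMap.id ℝ (Euc d))) y :=
    ((hk.differentiable one_ne_zero).differentiableAt.hasFDerivAt).comp y
      ((hasFDerivAt_id y).const_sub x)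
  rw [pd, h.fderiv]
  simp [pd]

/-! ### Mollification -/

/-- The bump of radius `1 / (n + 1)`. -/
noncomputable def mollBump (n : ℕ) : ContDiffBump (0 : Euc d) :=
  ⟨1 / (2 * ((n : ℝ) + 1)), 1 / ((n : ℝ) + 1), by positivity,
    by rw [div_lt_div_iff₀ (by positivity) (by positivity)]; linarith [n.cast_nonneg (α := ℝ)]⟩

/-- The mollification at scale `1 / (n + 1)`. -/
noncomputable def moll (n : ℕ) (f : Euc d → ℝ) : Euc d → ℝ :=
  avgWith ((mollBump n).normed volume) f

lemma ae_tendsto_moll (hf : LocallyIntegrable f) :
    ∀ᵐ x, Tendsto (fun n => moll n f x) atTop (𝓝 (f x)) := by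
  simp only [moll, avgWith_eq_convolution]
  refine ContDiffBump.ae_convolution_tendsto_right_of_locallyIntegrable (K := 2) ?_
    (Eventually.of_forall fun n => le_of_eq ?_) hf
  · exact tendsto_one_div_add_atTop_nhds_zero_nat
  · simp [mollBump]
    field_simp

lemma abs_moll_le (f : Euc d → ℝ) (n : ℕ) (x : Euc d) :
    |moll n f x| ≤ moll n (fun y => |f y|) x := by
  refine (abs_integral_le_integral_abs).trans (le_of_eq (integral_congr_ae ?_))
  exact Eventually.of_forall fun y => by
    simp [abs_mul, abs_of_nonneg ((mollBump n).nonneg_normed (x - y))]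

lemma integrable_moll (hf : Integrable f) (n : ℕ) : Integrable (moll n f) := by
  rw [moll, avgWith_eq_convolution]
  exact (mollBump n).integrable_normed.integrable_convolution _ hf

lemma integral_moll (hf : Integrable f) (n : ℕ) : ∫ x, moll n f x = ∫ x, f x := by
  rw [moll, avgWith_eq_convolution, integral_convolution _ (mollBump n).integrable_normed hf]
  simp [ContDiffBump.integral_normed]

/-- Mollifications converge in `L¹`. -/
theorem tendsto_integral_abs_moll_sub (hf : Integrable f) :
    Tendsto (fun n => ∫ x, |moll n f x - f x|) atTop (𝓝 0) := by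
  set h : ℕ → Euc d → ℝ := fun n => moll n fun y => |f y|
  have hh : ∀ n, Integrable (h n) := integrable_moll hf.abs
  have hae := ae_tendsto_moll hf.abs.locallyIntegrable
  have hm : Tendsto (fun n => ∫ x, max (|f x| - h n x) 0) atTop
      (𝓝 (∫ _ : Euc d, (0 : ℝ))) := by
    refine tendsto_integral_of_dominated_convergence (fun x => |f x|)
      (fun n => ((hf.abs.sub (hh n)).aestronglyMeasurable.sup aestronglyMeasurable_const))
      hf.abs (fun n => Eventually.of_forall fun x => ?_) ?_
    · have h0 : 0 ≤ h n x := integral_nonneg fun y =>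
        mul_nonneg ((mollBump n).nonneg_normed _) (abs_nonneg _)
      rw [Real.norm_eq_abs, abs_of_nonneg (le_max_right _ _)]
      exact max_le (by linarith) (abs_nonneg _)
    · filter_upwards [hae] with x hx
      simpa using ((tendsto_const_nhds (x := |f x|)).sub hx).max (tendsto_const_nhds (x := (0 : ℝ)))
  have habs : Tendsto (fun n => ∫ x, |h n x - (|f x|)|) atTop (𝓝 0) := by
    have e : ∀ n, ∫ x, |h n x - (|f x|)| = 2 * ∫ x, max (|f x| - h n x) 0 := fun n => by
      have i1 : Integrable fun x => max (|f x| - h n x) 0 := (hf.abs.sub (hh n)).pos_part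
      calc ∫ x, |h n x - (|f x|)| = ∫ x, (2 * max (|f x| - h n x) 0 + (h n x - |f x|)) := by
            refine integral_congr_ae (Eventually.of_forall fun x => ?_)
            rcases le_total (h n x) |f x| with a | a
            · simp only
              rw [abs_of_nonpos (by linarith), max_eq_left (by linarith)]; ring
            · simp only
              rw [abs_of_nonneg (by linarith), max_eq_right (by linarith)]; ring
        _ = _ := by
            rw [integral_add (g := fun x => h n x - |f x|) (i1.const_mul 2) ((hh n).sub hf.abs),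
              integral_const_mul,
              integral_sub (hh n) hf.abs, integral_moll hf.abs, sub_self, add_zero]
    rw [integral_zero] at hm
    simpa [e] using hm.const_mul 2
  have hE : Tendsto (fun n => ∫ x, min |moll n f x - f x| (2 * |f x|)) atTop
      (𝓝 (∫ _ : Euc d, (0 : ℝ))) := by
    refine tendsto_integral_of_dominated_convergence (fun x => 2 * |f x|)
      (fun n => (((integrable_moll hf n).sub hf).abs.aestronglyMeasurable).inf
        (hf.abs.const_mul 2).aestronglyMeasurable) (hf.abs.const_mul 2)
      (fun n => Eventually.of_forall fun x => ?_) ?_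
    · rw [Real.norm_eq_abs, abs_of_nonneg (le_min (abs_nonneg _) (by positivity))]
      exact min_le_right _ _
    · filter_upwards [ae_tendsto_moll hf.locallyIntegrable] with x hx
      simpa using ((hx.sub (tendsto_const_nhds (x := f x))).abs).min
        (tendsto_const_nhds (x := 2 * |f x|))
  refine squeeze_zero (fun n => integral_nonneg fun _ => abs_nonneg _) (fun n => ?_)
    (by simpa using hE.add habs)
  have i1 : Integrable fun x => min |moll n f x - f x| (2 * |f x|) :=
    ((integrable_moll hf n).sub hf).abs.inf (hf.abs.const_mul 2)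
  have i2 : Integrable fun x => |h n x - (|f x|)| := ((hh n).sub hf.abs).abs
  rw [← integral_add i1 i2]
  refine integral_mono ((integrable_moll hf n).sub hf).abs (i1.add i2)
    fun x => ?_
  have h1 : |moll n f x| ≤ h n x := abs_moll_le f n x
  have h2 := abs_sub (moll n f x) (f x)
  have h3 := le_abs_self (h n x - |f x|)
  have h4 := abs_nonneg (h n x - |f x|)
  show |moll n f x - f x| ≤ min |moll n f x - f x| (2 * |f x|) + |h n x - (|f x|)|
  rcases le_total |moll n f x - f x| (2 * |f x|) with a | a
  · rw [min_eq_left a]; linarith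
  · rw [min_eq_right a]; linarith

/-! ### The chain rule -/

lemma integrable_indicator_ball {c : Euc d} {R : ℝ} (hf : MemLp f 2 (volume.restrict (ball c R))) :
    Integrable ((ball c R).indicator f) := by
  have := isFiniteMeasure_restrict (isBounded_ball : Bornology.IsBounded (ball c R))
  exact (integrable_indicator_iff measurableSet_ball).2 (hf.integrable one_le_two)

/-- The chain rule for a `C¹` function with bounded derivative. -/
theorem HasWeakGrad.comp {G : Fin d → Euc d → ℝ} {c : Euc d} {R R' : ℝ} (hR : R < R')
    (hf : MemLp f 2 (volume.restrict (ball c R'))) (hG : HasWeakGrad (ball c R') f G)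
    {F : ℝ → ℝ} (hF : ContDiff ℝ 1 F) {M : ℝ} (hM : ∀ t, |deriv F t| ≤ M) :
    HasWeakGrad (ball c R) (fun x => F (f x)) fun i x => deriv F (f x) * G i x := by
  have hR0 : ball c R ⊆ ball c R' := ball_subset_ball hR.le
  have hM0 : 0 ≤ M := (abs_nonneg _).trans (hM 0)
  have hFc : Continuous (deriv F) := hF.continuous_deriv le_rfl
  refine ⟨fun i => ?_, fun i φ hφ hs hsub => ?_⟩
  · refine ((hG.1 i).mono_measure (Measure.restrict_mono hR0 le_rfl)).const_mul M |>.mono
      ((hFc.comp_aestronglyMeasurable (hf.mono_measure
        (Measure.restrict_mono hR0 le_rfl)).1).mul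
        ((hG.1 i).mono_measure (Measure.restrict_mono hR0 le_rfl)).1) ?_
    exact Eventually.of_forall fun x => by
      simpa [abs_mul, abs_of_nonneg hM0] using mul_le_mul_of_nonneg_right (hM _) (abs_nonneg _)
  set f₀ := (ball c R').indicator f with hf₀
  set g₀ := (ball c R').indicator (G i) with hg₀
  have hf1 : Integrable f₀ := integrable_indicator_ball hf
  have hg1 : Integrable g₀ := integrable_indicator_ball (hG.1 i)
  set fn : ℕ → Euc d → ℝ := fun n => moll n f₀ with hfn
  have hbs : ∀ n, HasCompactSupport ((mollBump n : ContDiffBump (0 : Euc d)).normed volume) :=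
    fun n => (mollBump n).hasCompactSupport_normed
  have hfc : ∀ n, ContDiff ℝ ∞ (fn n) := fun n =>
    contDiff_avgWith (mollBump n).contDiff_normed (hbs n) hf1.locallyIntegrable
  have hfs : ∀ n, HasCompactSupport (fn n) := fun n => by
    rw [hfn]
    simp only [moll, avgWith_eq_convolution]
    exact (hbs n).convolution _ (IsCompact.of_isClosed_subset (isCompact_closedBall c R')
      (isClosed_tsupport _) (closure_minimal ((Set.support_indicator_subset).trans
        ball_subset_closedBall) isClosed_closedBall))
  have hK : tsupport φ ⊆ ball c R := hsub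
  -- near the test function the derivative of the mollification is the mollified gradient
  have hgrad : ∀ᶠ n : ℕ in atTop, ∀ x ∈ ball c R, pd i (fn n) x = moll n g₀ x := by
    filter_upwards [(tendsto_one_div_add_atTop_nhds_zero_nat (𝕜 := ℝ)).eventually
      (gt_mem_nhds (sub_pos.2 hR))] with n hn x hx
    have hbs' : tsupport (fun y => (mollBump n : ContDiffBump (0 : Euc d)).normed volume (x - y)) ⊆
        ball c R' := by
      refine (closure_minimal (t := closedBall x (1 / ((n : ℝ) + 1))) (fun y hy => ?_)
        isClosed_closedBall).trans (closedBall_subset_ball' ?_)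
      · rw [Function.mem_support] at hy
        have := (mollBump n : ContDiffBump (0 : Euc d)).support_normed_eq (μ := volume) ▸
          (Function.mem_support.2 hy : x - y ∈ Function.support _)
        rw [mem_ball, dist_zero_right, ← dist_eq_norm] at this
        rw [mem_closedBall, dist_comm]
        exact this.le
      · rw [mem_ball] at hx
        linarith
    have h := hG.2 i (fun y => (mollBump n : ContDiffBump (0 : Euc d)).normed volume (x - y))
      ((mollBump n).contDiff_normed.comp (contDiff_const.sub contDiff_id))
      ((hbs n).comp_homeomorph (Homeomorph.subLeft x)) hbs'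
    simp only [pd_comp_sub ((mollBump n).contDiff_normed (n := 1)), mul_neg, integral_neg,
      neg_inj] at h
    rw [hfn]
    simp only [moll]
    rw [pd_avgWith (mollBump n).contDiff_normed (hbs n) hf1.locallyIntegrable]
    simp only [avgWith]
    have e : ∀ k F : Euc d → ℝ, ∫ y, k y * (ball c R').indicator F y =
        ∫ y in ball c R', F y * k y := fun k F => by
      rw [← integral_indicator measurableSet_ball]
      exact integral_congr_ae (Eventually.of_forall fun y => by
        by_cases hy : y ∈ ball c R' <;> simp [hy, mul_comm])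
    rw [hf₀, hg₀, e, e]
    exact h
  obtain ⟨P, hP⟩ := hφ.continuous.bounded_above_of_compact_support hs
  obtain ⟨Q, hQ⟩ := (continuous_pd (hφ.of_le (by simp)) i).bounded_above_of_compact_support
    (hasCompactSupport_pd hs i)
  have hz : ∀ x, x ∉ ball c R → φ x = 0 ∧ pd i φ x = 0 := fun x hx => by
    have h1 := notMem_tsupport_iff_eventuallyEq.1 fun h => hx (hK h)
    exact ⟨h1.eq_of_nhds, pd_eq_zero_of_eventually h1 i⟩
  rw [setIntegral_eq_integral_of_forall_compl_eq_zero fun x hx => by simp [(hz x hx).2],
    setIntegral_eq_integral_of_forall_compl_eq_zero fun x hx => by simp [(hz x hx).1]]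
  have hid : ∀ n, ∫ x, F (fn n x) * pd i φ x = -∫ x, deriv F (fn n x) * pd i (fn n) x * φ x := by
    intro n
    obtain ⟨D, hD⟩ := lipschitzWith_of_test hφ hs
    obtain ⟨A, hA⟩ := lipschitzWith_of_test (hfc n) (hfs n)
    have hFl : LipschitzWith M.toNNReal F := lipschitzWith_of_nnnorm_deriv_le
      (hF.differentiable one_ne_zero) fun t => by
        rw [← NNReal.coe_le_coe, coe_nnnorm, Real.coe_toNNReal M hM0]; exact hM t
    rw [show (fun x => F (fn n x) * pd i φ x) = fun x => (F ∘ fn n) x * pd i φ x from rfl,
      integral_mul_pd (hFl.comp hA) hD hs i]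
    refine congrArg _ (integral_congr_ae (Eventually.of_forall fun x => ?_))
    have h := ((hF.differentiable one_ne_zero).differentiableAt.hasFDerivAt).comp x
      (((hfc n).differentiable (by simp)).differentiableAt.hasFDerivAt)
    simp only [pd, h.fderiv]
    simp [mul_comm, fderiv_eq_smul_deriv]
  have hfa := ae_tendsto_moll hf1.locallyIntegrable
  have l1 := tendsto_integral_abs_moll_sub hf1
  have l2 := tendsto_integral_abs_moll_sub hg1
  have L1 : Tendsto (fun n => ∫ x, F (fn n x) * pd i φ x) atTop
      (𝓝 (∫ x, F (f₀ x) * pd i φ x)) := by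
    have hb : ∀ a b : ℝ, |F a - F b| ≤ M * |a - b| := fun a b => by
      have := Convex.norm_image_sub_le_of_norm_deriv_le
        (fun t _ => (hF.differentiable one_ne_zero).differentiableAt)
        (fun t _ => hM t) convex_univ (Set.mem_univ b) (Set.mem_univ a)
      simpa [Real.norm_eq_abs] using this
    have hQ0 : 0 ≤ Q := (norm_nonneg _).trans (hQ 0)
    have hpc : Continuous (pd i φ) := continuous_pd (hφ.of_le (by simp)) i
    have hint : Integrable fun x => F (f₀ x) * pd i φ x := by
      have h0 : Integrable fun x => F 0 * pd i φ x :=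
        (hpc.integrable_of_hasCompactSupport (hasCompactSupport_pd hs i)).const_mul _
      have h1 : Integrable fun x => (F (f₀ x) - F 0) * pd i φ x :=
        (hf1.abs.const_mul (M * Q)).mono
          (((hF.continuous.comp_aestronglyMeasurable hf1.1).sub aestronglyMeasurable_const).mul
            hpc.aestronglyMeasurable) (Eventually.of_forall fun x => by
            rw [norm_mul, Real.norm_eq_abs, Real.norm_eq_abs (M * Q * |f₀ x|),
              abs_of_nonneg (show (0 : ℝ) ≤ M * Q * |f₀ x| by positivity)]
            have := mul_le_mul (hb (f₀ x) 0) (hQ x) (norm_nonneg _) (by positivity)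
            simpa [mul_comm, mul_left_comm, mul_assoc] using this)
      exact (h1.add h0).congr (Eventually.of_forall fun x => by simp; ring)
    refine tendsto_iff_norm_sub_tendsto_zero.2 (squeeze_zero (fun _ => norm_nonneg _) (fun n => ?_)
      (by simpa using l1.const_mul (M * Q)))
    have hni : Integrable fun x => F (fn n x) * pd i φ x :=
      ((hF.continuous.comp (hfc n).continuous).mul hpc).integrable_of_hasCompactSupport
        (hasCompactSupport_pd hs i).mul_left
    rw [← integral_sub hni hint, ← integral_const_mul]
    refine (norm_integral_le_integral_norm _).trans (integral_mono (hni.sub hint).norm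
      ((((integrable_moll hf1 n).sub hf1).abs).const_mul _) fun x => ?_)
    rw [← sub_mul, norm_mul, Real.norm_eq_abs]
    have := mul_le_mul (hb (fn n x) (f₀ x)) (hQ x) (norm_nonneg _) (by positivity)
    simpa [mul_comm, mul_left_comm, mul_assoc] using this
  have L2 : Tendsto (fun n => ∫ x, deriv F (fn n x) * pd i (fn n) x * φ x) atTop
      (𝓝 (∫ x, deriv F (f₀ x) * g₀ x * φ x)) := by
    have hP0 : 0 ≤ P := (norm_nonneg _).trans (hP 0)
    have i1 : Integrable fun x => deriv F (f₀ x) * g₀ x * φ x :=
      (hg1.abs.const_mul (M * P)).mono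
        (((hFc.comp_aestronglyMeasurable hf1.1).mul hg1.1).mul hφ.continuous.aestronglyMeasurable)
        (Eventually.of_forall fun x => by
          rw [norm_mul, norm_mul, Real.norm_eq_abs (M * P * |g₀ x|),
            abs_of_nonneg (show (0 : ℝ) ≤ M * P * |g₀ x| by positivity)]
          have := mul_le_mul (mul_le_mul_of_nonneg_right (hM (f₀ x)) (abs_nonneg (g₀ x))) (hP x)
            (norm_nonneg _) (by positivity)
          simpa [mul_comm, mul_left_comm, mul_assoc] using this)
    have hdom : Tendsto (fun n => ∫ x, deriv F (fn n x) * g₀ x * φ x) atTop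
        (𝓝 (∫ x, deriv F (f₀ x) * g₀ x * φ x)) := by
      refine tendsto_integral_of_dominated_convergence (fun x => M * P * |g₀ x|) (fun n => ?_)
        (hg1.abs.const_mul _) (fun n => Eventually.of_forall fun x => ?_) ?_
      · exact ((hFc.comp_aestronglyMeasurable (hfc n).continuous.aestronglyMeasurable).mul
          hg1.1).mul hφ.continuous.aestronglyMeasurable
      · rw [norm_mul, norm_mul]
        have := mul_le_mul (mul_le_mul_of_nonneg_right (hM (fn n x)) (abs_nonneg (g₀ x))) (hP x)
          (norm_nonneg _) (by positivity)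
        simpa [mul_comm, mul_left_comm, mul_assoc] using this
      · filter_upwards [hfa] with x hx
        exact (((hFc.tendsto _).comp hx).mul tendsto_const_nhds).mul tendsto_const_nhds
    have hdiff : Tendsto (fun n => (∫ x, deriv F (fn n x) * pd i (fn n) x * φ x) -
        ∫ x, deriv F (fn n x) * g₀ x * φ x) atTop (𝓝 0) := by
      refine squeeze_zero_norm' ?_ (by simpa using l2.const_mul (M * P))
      filter_upwards [hgrad] with n hn
      have a1 : Integrable fun x => deriv F (fn n x) * pd i (fn n) x * φ x :=
        (((hFc.comp (hfc n).continuous).mul (continuous_pd ((hfc n).of_le (by simp)) i)).mul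
          hφ.continuous).integrable_of_hasCompactSupport hs.mul_left
      have a2 : Integrable fun x => deriv F (fn n x) * g₀ x * φ x :=
        (hg1.abs.const_mul (M * P)).mono
          (((hFc.comp_aestronglyMeasurable (hfc n).continuous.aestronglyMeasurable).mul
            hg1.1).mul hφ.continuous.aestronglyMeasurable)
          (Eventually.of_forall fun x => by
            rw [norm_mul, norm_mul, Real.norm_eq_abs (M * P * |g₀ x|),
              abs_of_nonneg (show (0 : ℝ) ≤ M * P * |g₀ x| by positivity)]
            have := mul_le_mul (mul_le_mul_of_nonneg_right (hM (fn n x)) (abs_nonneg (g₀ x)))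
              (hP x) (norm_nonneg _) (by positivity)
            simpa [mul_comm, mul_left_comm, mul_assoc] using this)
      rw [← integral_sub a1 a2, ← integral_const_mul]
      refine (norm_integral_le_integral_norm _).trans (integral_mono (a1.sub a2).norm
        (((integrable_moll hg1 n).sub hg1).abs.const_mul _) fun x => ?_)
      by_cases hx : x ∈ ball c R
      · rw [hn x hx, ← sub_mul, ← mul_sub, norm_mul, norm_mul]
        have := mul_le_mul (mul_le_mul_of_nonneg_right (hM (fn n x))
          (abs_nonneg (moll n g₀ x - g₀ x))) (hP x) (norm_nonneg _) (by positivity)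
        simpa [mul_comm, mul_left_comm, mul_assoc] using this
      · simp [(hz x hx).1]
        positivity
    simpa using hdiff.add hdom
  have := tendsto_nhds_unique (L1.congr hid) L2.neg
  refine Eq.trans (integral_congr_ae (Eventually.of_forall fun x => ?_))
    (this.trans (congrArg _ (integral_congr_ae (Eventually.of_forall fun x => ?_))))
  · by_cases hx : x ∈ ball c R
    · simp [hf₀, hR0 hx]
    · simp [(hz x hx).2]
  · by_cases hx : x ∈ ball c R
    · simp [hf₀, hg₀, hR0 hx]
    · simp [(hz x hx).1]

/-- A weak gradient of the positive part. -/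
theorem HasWeakGrad.posPart {G : Fin d → Euc d → ℝ} {c : Euc d} {R R' : ℝ} (hR : R < R')
    (hf : MemLp f 2 (volume.restrict (ball c R'))) (hG : HasWeakGrad (ball c R') f G) :
    HasWeakGrad (ball c R) (fun x => max (f x) 0) fun i => {x | 0 < f x}.indicator (G i) := by
  set q : ℕ → ℝ → ℝ := fun n t => max (min (((n : ℝ) + 1) * t) 1) 0 with hq
  have hqc : ∀ n, Continuous (q n) := fun n => by fun_prop
  have hqb : ∀ n t, |q n t| ≤ 1 := fun n t => by
    rw [abs_of_nonneg (le_max_right _ _)]
    exact max_le (min_le_right _ _) zero_le_one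
  have hq0 : ∀ n, ∀ t ≤ 0, q n t = 0 := fun n t ht => max_eq_right ((min_le_left _ _).trans
    (mul_nonpos_of_nonneg_of_nonpos (by positivity) ht))
  have hqlim : ∀ t, Tendsto (fun n => q n t) atTop (𝓝 (if 0 < t then 1 else 0)) := fun t => by
    by_cases ht : 0 < t
    · rw [if_pos ht]
      refine tendsto_const_nhds.congr' ?_
      filter_upwards [eventually_ge_atTop ⌈1 / t⌉₊] with n hn
      have h1 : 1 / t ≤ n := (Nat.le_ceil _).trans (by exact_mod_cast hn)
      rw [div_le_iff₀ ht] at h1
      rw [hq]
      simp only
      rw [min_eq_right (by linarith), max_eq_left zero_le_one]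
    · rw [if_neg ht]
      simp [hq0 _ t (not_lt.1 ht)]
  set F : ℕ → ℝ → ℝ := fun n t => ∫ s in (0 : ℝ)..t, q n s with hFdef
  have hFd : ∀ n, deriv (F n) = q n := fun n => funext fun t =>
    (hqc n).deriv_integral (q n) 0 t
  have hFC : ∀ n, ContDiff ℝ 1 (F n) := fun n => contDiff_one_iff_deriv.2
    ⟨fun t => ((hqc n).integral_hasStrictDerivAt 0 t).hasDerivAt.differentiableAt,
      (hFd n).symm ▸ hqc n⟩
  have hFb : ∀ n t, |F n t| ≤ |t| := fun n t => by
    have := intervalIntegral.norm_integral_le_of_norm_le_const (C := 1) (a := (0 : ℝ)) (b := t)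
      (f := q n) fun s _ => hqb n s
    simpa [hFdef] using this
  have hFlim : ∀ t, Tendsto (fun n => F n t) atTop (𝓝 (max t 0)) := fun t => by
    have h := intervalIntegral.tendsto_integral_filter_of_dominated_convergence
      (a := (0 : ℝ)) (b := t) (fun _ => (1 : ℝ)) (F := q) (f := fun s => if 0 < s then 1 else 0)
      (Eventually.of_forall fun n => (hqc n).aestronglyMeasurable)
      (Eventually.of_forall fun n => Eventually.of_forall fun s _ => hqb n s)
      intervalIntegrable_const (μ := volume) (Eventually.of_forall fun s _ => hqlim s)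
    refine h.trans (le_of_eq (congrArg _ ?_))
    rcases le_total t 0 with ht | ht
    · rw [max_eq_right ht, intervalIntegral.integral_congr (g := fun _ => (0 : ℝ)) fun s hs => ?_]
      · simp
      · rw [Set.uIcc_of_ge ht] at hs
        simp [not_lt.2 hs.2]
    · rw [max_eq_left ht, intervalIntegral.integral_congr_ae (g := fun _ => (1 : ℝ))
        (Eventually.of_forall fun s hs => ?_)]
      · simp
      · rw [Set.uIoc_of_le ht] at hs
        simp [hs.1]
  have hb : Bornology.IsBounded (ball c R) := isBounded_ball
  have := isFiniteMeasure_restrict hb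
  have hfR := hf.mono_measure (Measure.restrict_mono (ball_subset_ball hR.le) le_rfl)
  have hGR := hG.mono (ball_subset_ball hR.le)
  have hS : NullMeasurableSet {x | 0 < f x} (volume.restrict (ball c R)) :=
    nullMeasurableSet_lt aemeasurable_const hfR.1.aemeasurable
  refine ⟨fun i => ?_, fun i φ hφ hs hsub => ?_⟩
  · refine (hGR.1 i).mono ((hGR.1 i).1.indicator₀ hS) (Eventually.of_forall fun x => ?_)
    exact norm_indicator_le_norm_self _ _
  obtain ⟨P, hP⟩ := hφ.continuous.bounded_above_of_compact_support hs
  have hpc : Continuous (pd i φ) := continuous_pd (hφ.of_le (by simp)) i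
  obtain ⟨Q, hQ⟩ := hpc.bounded_above_of_compact_support (hasCompactSupport_pd hs i)
  have e := fun n => (hG.comp hR hf (hFC n) (M := 1) fun t => by
    rw [hFd]; exact hqb n t).2 i φ hφ hs hsub
  have L1 : Tendsto (fun n => ∫ x in ball c R, F n (f x) * pd i φ x) atTop
      (𝓝 (∫ x in ball c R, max (f x) 0 * pd i φ x)) := by
    refine tendsto_integral_of_dominated_convergence (fun x => Q * ‖f x‖)
      (fun n => ((hFC n).continuous.comp_aestronglyMeasurable hfR.1).mul hpc.aestronglyMeasurable)
      ((hfR.integrable one_le_two).norm.const_mul Q) (fun n => Eventually.of_forall fun x => ?_)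
      (Eventually.of_forall fun x => (hFlim _).mul tendsto_const_nhds)
    rw [norm_mul, mul_comm]
    exact mul_le_mul (hQ x) (by simpa using hFb n (f x)) (norm_nonneg _)
      ((norm_nonneg _).trans (hQ x))
  have L2 : Tendsto (fun n => ∫ x in ball c R, deriv (F n) (f x) * G i x * φ x) atTop
      (𝓝 (∫ x in ball c R, {x | 0 < f x}.indicator (G i) x * φ x)) := by
    simp only [hFd]
    refine tendsto_integral_of_dominated_convergence (fun x => P * ‖G i x‖)
      (fun n => (((hqc n).comp_aestronglyMeasurable hfR.1).mul (hGR.1 i).1).mul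
        hφ.continuous.aestronglyMeasurable)
      (((hGR.1 i).integrable one_le_two).norm.const_mul P)
      (fun n => Eventually.of_forall fun x => ?_) (Eventually.of_forall fun x => ?_)
    · rw [norm_mul, norm_mul, mul_comm]
      refine mul_le_mul (hP x) ?_ (by positivity) ((norm_nonneg _).trans (hP x))
      exact mul_le_of_le_one_left (norm_nonneg _) (hqb n (f x))
    · have := ((hqlim (f x)).mul (tendsto_const_nhds (x := G i x))).mul
        (tendsto_const_nhds (x := φ x))
      by_cases hx : 0 < f x <;> simpa [hx] using this
  exact tendsto_nhds_unique (L1.congr e) L2.neg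

end Vale.Agent.P098
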