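import Vale.Agent.P098.Regularity.B2.Potential

/-!
P098, block B2: the representative is smooth and harmonic where positive, and Lipschitz with a
constant depending only on the dimension.
-/

open MeasureTheory Filter Metric
open scoped Topology ContDiff NNReal

namespace Vale.Agent.P098

variable {d : ℕ} {u : Euc d → ℝ}

namespace Kern

variable (k : Kern d)

lemma isOpen_pos (hu : IsGlobalMinimizer u) : IsOpen (posSet (k.rep u)) :=
  isOpen_lt continuous_const (k.continuous_rep hu)

lemma mu_eq_zero_of_pos (hu : IsGlobalMinimizer u) {φ : Euc d → ℝ} (hφ : ContDiff ℝ ∞ φ)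
    {x : Euc d} {r : ℝ} (hr : 0 ≤ r) (hsub : tsupport φ ⊆ closedBall x r)
    (hpos : closedBall x r ⊆ posSet (k.rep u)) : mu u φ = 0 := by
  obtain ⟨z, hz, hmin⟩ := (isCompact_closedBall x r).exists_isMinOn ⟨x, mem_closedBall_self hr⟩
    (k.continuous_rep hu).continuousOn
  refine hu.mu_eq_zero hφ ((isCompact_closedBall x r).of_isClosed_subset (isClosed_tsupport _) hsub)
    (m := k.rep u z) (hpos hz) ?_
  filter_upwards [k.rep_ae_eq hu] with y hy hys
  rw [← hy]
  exact isMinOn_iff.1 hmin y (hsub hys)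

/-- Where the representative is positive on a closed ball, it is the mean over that ball. -/
lemma pot_eq_rep (hu : IsGlobalMinimizer u) {x : Euc d} {r : ℝ} (hr : 0 < r)
    (hpos : closedBall x r ⊆ posSet (k.rep u)) : k.pot u r x = k.rep u x := by
  refine le_antisymm (le_csInf (Set.Nonempty.image _ Set.nonempty_Ioi) ?_) (k.rep_le_pot hu hr x)
  rintro _ ⟨s, hs, rfl⟩
  rcases le_total r s with h | h
  · exact (k.pot_mono hu hr h x).1
  · have hd : DifferentiableOn ℝ (fun s => k.pot u s x) (interior (Set.Ioc 0 r)) := fun t ht =>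
      (k.hasDerivAt_pot hu (interior_subset ht).1 x).differentiableAt.differentiableWithinAt
    have := Convex.image_sub_le_mul_sub_of_deriv_le (convex_Ioc 0 r)
      ((k.continuousOn_pot hu x).mono Set.Ioc_subset_Ioi_self) hd (C := 0) (fun t ht => by
        obtain ⟨h1, h2⟩ := interior_subset ht
        rw [(k.hasDerivAt_pot hu h1 x).deriv, k.mu_eq_zero_of_pos hu (k.contDiff_test t x) h1.le
          (k.tsupport_test h1 x) ((closedBall_subset_closedBall h2).trans hpos), mul_zero])
      s ⟨hs, h⟩ r ⟨hr, le_rfl⟩ h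
    linarith

lemma eventuallyEq_pot (hu : IsGlobalMinimizer u) {x : Euc d} {r : ℝ} (hr : 0 < r)
    (hpos : closedBall x r ⊆ posSet (k.rep u)) : k.rep u =ᶠ[𝓝 x] k.pot u r := by
  obtain ⟨δ, hδ, hsub⟩ := (isCompact_closedBall x r).exists_cthickening_subset_open
    (k.isOpen_pos hu) hpos
  filter_upwards [closedBall_mem_nhds x hδ] with y hy
  refine (k.pot_eq_rep hu hr fun z hz => hsub ?_).symm
  have e : z - y + x ∈ closedBall x r := by
    rw [mem_closedBall, dist_eq_norm, add_sub_cancel_right, ← dist_eq_norm]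
    exact hz
  refine Metric.mem_cthickening_of_dist_le z (z - y + x) δ (closedBall x r) e ?_
  rw [mem_closedBall, dist_eq_norm] at hy
  rw [dist_eq_norm, show z - (z - y + x) = y - x by abel]
  exact hy

lemma exists_closedBall (hu : IsGlobalMinimizer u) {x : Euc d} (hx : x ∈ posSet (k.rep u)) :
    ∃ r > 0, closedBall x r ⊆ posSet (k.rep u) :=
  nhds_basis_closedBall.mem_iff.1 ((k.isOpen_pos hu).mem_nhds hx)

theorem contDiffOn_rep (hu : IsGlobalMinimizer u) :
    ContDiffOn ℝ ∞ (k.rep u) (posSet (k.rep u)) := fun x hx => by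
  obtain ⟨r, hr, hpos⟩ := k.exists_closedBall hu hx
  exact ((k.contDiff_pot hu hr).contDiffAt.congr_of_eventuallyEq
    (k.eventuallyEq_pot hu hr hpos)).contDiffWithinAt

theorem harmonic_rep (hu : IsGlobalMinimizer u) {x : Euc d} (hx : x ∈ posSet (k.rep u)) :
    ∑ i, pd i (pd i (k.rep u)) x = 0 := by
  obtain ⟨r, hr, hpos⟩ := k.exists_closedBall hu hx
  set K := scaled k.ρ r with hK
  have hKs : ContDiff ℝ ∞ K := contDiff_scaled k.ρ_smooth r
  have hKc : HasCompactSupport K := hasCompactSupport_scaled k.ρ_supp hr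
  have he : ∀ i, pd i (k.rep u) =ᶠ[𝓝 x] pd i (k.pot u r) := fun i => by
    filter_upwards [(k.eventuallyEq_pot hu hr hpos).eventually_nhds] with y hy
    exact pd_congr hy i
  have hint : ∀ i, Integrable fun y => pd i (pd i K) (x - y) * u y := fun i =>
    integrable_kernel_mul (contDiff_pd_infty (contDiff_pd_infty hKs i) i).continuous
      (hasCompactSupport_pd (hasCompactSupport_pd hKc i) i) hu.locallyIntegrable x
  calc ∑ i, pd i (pd i (k.rep u)) x = ∑ i, avgWith (pd i (pd i K)) u x :=
        Finset.sum_congr rfl fun i _ => by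
          rw [pd_congr (he i) i]
          exact pd_pd_avgWith hKs hKc hu.locallyIntegrable i x
    _ = mu u (fun y => K (x - y)) := by
        simp only [avgWith]
        rw [← integral_finsetSum _ fun i _ => hint i, mu]
        refine integral_congr_ae (Eventually.of_forall fun y => ?_)
        simp only [← Finset.sum_mul]
        rw [mul_comm]
        exact congrArg (u y * ·) (lap_comp_sub hKs x y).symm
    _ = 0 := k.mu_eq_zero_of_pos hu (hKs.comp (contDiff_const.sub contDiff_id)) hr.le
        (closure_minimal (fun y hy => by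
          by_contra h
          rw [mem_closedBall, dist_eq_norm, norm_sub_rev, not_le] at h
          exact hy (scaled_eq_zero k.ρ_supp hr h.le)) isClosed_closedBall) hpos

/-- The gradient bound. -/
noncomputable def slope : ℝ := k.A * 8 ^ d * (8 * k.speed + 1) / k.low

lemma slope_nonneg : 0 ≤ k.slope := by
  have := k.A_nonneg
  have := k.speed_nonneg
  have := k.low_pos
  rw [slope]
  positivity

lemma abs_pd_pot_le (hu : IsGlobalMinimizer u) {x z : Euc d} {r s : ℝ} (hr : 0 < r)
    (hs : 0 < s) (hsub : closedBall x r ⊆ ball z s) (i : Fin d) :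
    |pd i (k.pot u r) x| ≤ r⁻¹ * ((r ^ d)⁻¹ * k.A) *
      ((2 * s) ^ d / k.low * (k.rep u z + k.speed * (2 * s))) := by
  have hK := contDiff_scaled k.ρ_smooth r
  have hKc := hasCompactSupport_scaled k.ρ_supp hr
  have hA := k.A_nonneg
  have e : k.pot u r = avgWith (scaled k.ρ r) u := rfl
  rw [e, pd_avgWith hK hKc hu.locallyIntegrable, avgWith, ← Real.norm_eq_abs]
  refine (norm_integral_le_of_norm_le
    (g := (ball z s).indicator fun y => r⁻¹ * ((r ^ d)⁻¹ * k.A) * u y) ?_ ?_).trans ?_
  · exact (integrable_indicator_iff measurableSet_ball).2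
      (((hu.locallyIntegrable.integrableOn_isCompact (isCompact_closedBall z s)).mono_set
        ball_subset_closedBall).const_mul _)
  · filter_upwards [hu.1] with y hy
    rw [pd_scaled k.ρ_smooth r i, Real.norm_eq_abs]
    by_cases hyb : y ∈ ball z s
    · rw [Set.indicator_of_mem hyb, abs_mul, abs_mul, abs_of_pos (inv_pos.2 hr), abs_of_nonneg hy]
      gcongr
      exact abs_scaled_le (k.pd_ρ_le i) hr _
    · have hz : pd i k.ρ (r⁻¹ • (x - y)) = 0 := by
        refine pd_eq_zero_of_eventually ?_ i
        have h1 : 1 < ‖r⁻¹ • (x - y)‖ := by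
          rw [norm_smul, norm_inv, Real.norm_eq_abs, abs_of_pos hr, inv_mul_eq_div, lt_div_iff₀ hr,
            one_mul]
          by_contra h
          exact hyb (hsub (by rw [mem_closedBall, dist_eq_norm, norm_sub_rev]; exact not_lt.1 h))
        filter_upwards [continuous_norm.continuousAt.eventually (lt_mem_nhds h1)] with w hw
        exact k.ρ_supp w hw.le
      simp [Set.indicator_of_notMem hyb, scaled, hz]
  · rw [integral_indicator measurableSet_ball, integral_const_mul]
    exact mul_le_mul_of_nonneg_left (k.setIntegral_ball_le hu hs z) (by positivity)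

/-- The gradient is bounded where the representative is positive. -/
theorem abs_pd_rep_le (hu : IsGlobalMinimizer u) {x : Euc d} (hx : x ∈ posSet (k.rep u))
    (i : Fin d) : |pd i (k.rep u) x| ≤ k.slope := by
  have hA := k.A_nonneg
  have hC := k.speed_nonneg
  have hl := k.low_pos
  have key : ∀ (r : ℝ) (z : Euc d) (s : ℝ), 0 < r → closedBall x r ⊆ posSet (k.rep u) →
      0 < s → 2 * s ≤ 8 * r → closedBall x r ⊆ ball z s → k.rep u z ≤ r →
      |pd i (k.rep u) x| ≤ k.slope := by
    intro r z s hr hpos hs hsr hsub hz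
    rw [pd_congr (k.eventuallyEq_pot hu hr hpos) i]
    refine (k.abs_pd_pot_le hu hr hs hsub i).trans ?_
    have h0 := k.rep_nonneg hu z
    calc r⁻¹ * ((r ^ d)⁻¹ * k.A) * ((2 * s) ^ d / k.low * (k.rep u z + k.speed * (2 * s)))
        ≤ r⁻¹ * ((r ^ d)⁻¹ * k.A) * ((8 * r) ^ d / k.low * (r + k.speed * (8 * r))) := by
          gcongr
      _ = k.slope := by
          rw [slope, mul_pow]
          field_simp
          ring
  by_cases hne : (posSet (k.rep u))ᶜ.Nonempty
  · obtain ⟨z, hz, hzd⟩ := (k.isOpen_pos hu).isClosed_compl.exists_infDist_eq_dist hne x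
    set R := dist x z with hR
    have hR0 : 0 < R := dist_pos.2 fun h => hz (h ▸ hx)
    have hz0 : k.rep u z ≤ 0 := not_lt.1 hz
    refine key (R / 2) z (2 * R) (by positivity) (fun y hy => by_contra fun hy' => ?_)
      (by positivity) (by linarith) (fun y hy => ?_) (by linarith)
    · have := infDist_le_dist_of_mem (x := x) (show y ∈ (posSet (k.rep u))ᶜ from hy')
      rw [mem_closedBall, dist_comm] at hy
      linarith
    · rw [mem_closedBall] at hy
      rw [mem_ball]
      linarith [dist_triangle y x z]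
  · have h0 := k.rep_nonneg hu x
    rw [Set.not_nonempty_iff_eq_empty, Set.compl_empty_iff] at hne
    exact key (k.rep u x + 1) x (2 * (k.rep u x + 1)) (by positivity)
      (hne ▸ Set.subset_univ _) (by positivity) (by linarith)
      (closedBall_subset_ball (by linarith)) (by linarith)

/-- The Lipschitz constant. -/
noncomputable def lipConst : ℝ≥0 := ((d : ℝ) * k.slope).toNNReal

lemma coe_lipConst : (k.lipConst : ℝ) = d * k.slope :=
  Real.coe_toNNReal _ (mul_nonneg (Nat.cast_nonneg _) k.slope_nonneg)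

lemma norm_fderiv_rep_le (hu : IsGlobalMinimizer u) {x : Euc d} (hx : x ∈ posSet (k.rep u)) :
    ‖fderiv ℝ (k.rep u) x‖ ≤ d * k.slope := by
  refine ContinuousLinearMap.opNorm_le_bound _ (mul_nonneg (Nat.cast_nonneg _) k.slope_nonneg)
    fun v => ?_
  conv_lhs => arg 1; arg 2; rw [← (EuclideanSpace.basisFun (Fin d) ℝ).sum_repr v]
  rw [map_sum]
  refine (norm_sum_le _ _).trans ((Finset.sum_le_card_nsmul _ _ (k.slope * ‖v‖) fun i _ => ?_).trans
    (le_of_eq (by simp [mul_assoc])))
  rw [map_smul, norm_smul, mul_comm]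
  simp only [EuclideanSpace.basisFun_apply, EuclideanSpace.basisFun_repr]
  exact mul_le_mul (k.abs_pd_rep_le hu hx i) (PiLp.norm_apply_le v i) (norm_nonneg _)
    k.slope_nonneg

theorem lipschitz_rep (hu : IsGlobalMinimizer u) : LipschitzWith k.lipConst (k.rep u) := by
  refine LipschitzWith.of_le_add_mul _ fun x y => ?_
  rw [coe_lipConst]
  have hL : 0 ≤ (d : ℝ) * k.slope := mul_nonneg (Nat.cast_nonneg _) k.slope_nonneg
  rcases le_or_gt (k.rep u x) (k.rep u y) with h | h
  · nlinarith [dist_nonneg (x := x) (y := y)]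
  set p : ℝ → Euc d := fun t => x + t • (y - x)
  have hp : Continuous p := continuous_const.add (continuous_id.smul continuous_const)
  set T := Set.Icc (0 : ℝ) 1 ∩ (fun t => k.rep u (p t)) ⁻¹' Set.Iic (k.rep u y)
  have hT : IsClosed T := isClosed_Icc.inter (isClosed_Iic.preimage ((k.continuous_rep hu).comp hp))
  have h1 : (1 : ℝ) ∈ T := ⟨by simp, by simp [p]⟩
  obtain ⟨ht, hle⟩ := hT.csInf_mem ⟨1, h1⟩ ⟨0, fun t ht => ht.1.1⟩
  set t₀ := sInf T
  have hpos : ∀ t ∈ Set.Ioo 0 t₀, p t ∈ posSet (k.rep u) := fun t htt => by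
    have hn : t ∉ T := fun hm => (csInf_le ⟨0, fun s hs => hs.1.1⟩ hm).not_gt htt.2
    have : k.rep u y < k.rep u (p t) :=
      not_le.1 fun hle' => hn ⟨⟨htt.1.le, htt.2.le.trans ht.2⟩, hle'⟩
    exact (k.rep_nonneg hu y).trans_lt this
  have hder : ∀ t ∈ Set.Ioo 0 t₀, HasDerivAt (fun t => k.rep u (p t))
      (fderiv ℝ (k.rep u) (p t) (y - x)) t := fun t htt => by
    have h2 : HasDerivAt p (y - x) t := by
      simpa [p] using ((hasDerivAt_id t).smul_const (y - x)).const_add x
    exact ((((k.contDiffOn_rep hu).contDiffAt ((k.isOpen_pos hu).mem_nhds (hpos t htt))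
      ).differentiableAt (by simp)).hasFDerivAt).comp_hasDerivAt t h2
  have := Convex.mul_sub_le_image_sub_of_le_deriv (convex_Icc 0 t₀)
    (((k.continuous_rep hu).comp hp).continuousOn)
    (fun t htt => (hder t (interior_Icc (α := ℝ) ▸ htt)).differentiableAt.differentiableWithinAt)
    (C := -((d : ℝ) * k.slope * ‖y - x‖)) (fun t htt => by
      rw [interior_Icc] at htt
      rw [show k.rep u ∘ p = fun t => k.rep u (p t) from rfl, (hder t htt).deriv]
      have h3 := (fderiv ℝ (k.rep u) (p t)).le_opNorm (y - x)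
      have h4 := mul_le_mul_of_nonneg_right (k.norm_fderiv_rep_le hu (hpos t htt))
        (norm_nonneg (y - x))
      have h5 := (abs_le.1 (Real.norm_eq_abs _ ▸ h3)).1
      linarith) 0 ⟨le_rfl, ht.1⟩ t₀ ⟨ht.1, le_rfl⟩ ht.1
  simp only [Function.comp_apply, p, zero_smul, add_zero, sub_zero] at this
  simp only [Set.mem_preimage, Set.mem_Iic, p] at hle
  rw [dist_eq_norm, norm_sub_rev]
  nlinarith [mul_nonneg hL (norm_nonneg (y - x)), ht.2]

end Kern

end Vale.Agent.P098
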