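import Vale.Agent.P098.Regularity.B2.Variation

/-!
P098, block B2: a radial smooth kernel `ρ` with potential `η`, `∇η = -zρ`, so that the derivative in
the radius of the scaled kernel is the radius times the Laplacian of the scaled potential.
-/

open MeasureTheory Filter Metric
open scoped Topology ContDiff NNReal RealInnerProductSpace

namespace Vale.Agent.P098

variable {d : ℕ} {f : Euc d → ℝ}

/-- A kernel supported in the unit ball, its potential and their bounds. -/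
structure Kern (d : ℕ) where
  ρ : Euc d → ℝ
  η : Euc d → ℝ
  low : ℝ
  A : ℝ
  ρ_smooth : ContDiff ℝ ∞ ρ
  η_smooth : ContDiff ℝ ∞ η
  ρ_supp : ∀ z, 1 ≤ ‖z‖ → ρ z = 0
  η_supp : ∀ z, 1 ≤ ‖z‖ → η z = 0
  ρ_nonneg : ∀ z, 0 ≤ ρ z
  η_nonneg : ∀ z, 0 ≤ η z
  integral_ρ : ∫ z, ρ z = 1
  pd_η : ∀ i z, pd i η z = -(z i * ρ z)
  low_pos : 0 < low
  low_le : ∀ z, ‖z‖ ≤ 1 / 2 → low ≤ ρ z
  A_nonneg : 0 ≤ A
  ρ_le : ∀ z, |ρ z| ≤ A
  pd_ρ_le : ∀ i z, |pd i ρ z| ≤ A
  pd_η_le : ∀ i z, |pd i η z| ≤ A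
  lap_η_le : ∀ z, |lap η z| ≤ A

lemma hasCompactSupport_of_unit (hf : ∀ z, 1 ≤ ‖z‖ → f z = 0) : HasCompactSupport f :=
  HasCompactSupport.intro (isCompact_closedBall (0 : Euc d) 1) fun z hz => hf z (by
    rw [mem_closedBall, dist_zero_right, not_le] at hz
    exact hz.le)

theorem nonempty_kern (d : ℕ) : Nonempty (Kern d) := by
  set ψ : ℝ → ℝ := fun s => expNegInvGlue (1 - s)
  have hψ : ContDiff ℝ ∞ ψ := expNegInvGlue.contDiff.comp (contDiff_const.sub contDiff_id)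
  have hψ0 : ∀ s, 1 ≤ s → ψ s = 0 := fun s hs => expNegInvGlue.zero_of_nonpos (by linarith)
  have hψn : ∀ s, 0 ≤ ψ s := fun s => expNegInvGlue.nonneg _
  set P : ℝ → ℝ := fun s => -∫ t in (1 : ℝ)..s, ψ t
  have hP : ∀ s, HasDerivAt P (-ψ s) s := fun s =>
    (hψ.continuous.integral_hasStrictDerivAt 1 s).hasDerivAt.neg
  have hPs : ContDiff ℝ ∞ P :=
    contDiff_infty_iff_deriv.2 ⟨fun s => (hP s).differentiableAt, by
      rw [show deriv P = fun s => -ψ s from funext fun s => (hP s).deriv]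
      exact hψ.neg⟩
  have hP0 : ∀ s, 1 ≤ s → P s = 0 := fun s hs => by
    simp only [P, neg_eq_zero]
    refine intervalIntegral.integral_zero_ae (Eventually.of_forall fun t ht => hψ0 t ?_)
    rw [Set.uIoc_of_le hs] at ht
    exact ht.1.le
  have hPn : ∀ s, 0 ≤ P s := fun s => by
    rcases le_total 1 s with h | h
    · exact (hP0 s h).ge
    · simp only [P, intervalIntegral.integral_symm s 1, neg_neg]
      exact intervalIntegral.integral_nonneg h fun t _ => hψn t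
  set g : Euc d → ℝ := fun z => ‖z‖ ^ 2
  have hg : ContDiff ℝ ∞ g := contDiff_norm_sq ℝ
  have hg1 : ∀ z : Euc d, 1 ≤ ‖z‖ → 1 ≤ g z := fun z hz => one_le_pow₀ hz
  set ρ₀ : Euc d → ℝ := fun z => ψ (g z)
  have hρ₀ : ContDiff ℝ ∞ ρ₀ := hψ.comp hg
  have hρ₀s : HasCompactSupport ρ₀ := hasCompactSupport_of_unit fun z hz => hψ0 _ (hg1 z hz)
  set m := ∫ z, ρ₀ z
  have hm : 0 < m := hρ₀.continuous.integral_pos_of_hasCompactSupport_nonneg_nonzero hρ₀s
    (fun z => hψn _) (x := 0) (by simp [ρ₀, g, ψ, expNegInvGlue.zero_iff_nonpos])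
  set ρ : Euc d → ℝ := fun z => ρ₀ z / m
  set η : Euc d → ℝ := fun z => P (g z) / (2 * m)
  have hρ : ContDiff ℝ ∞ ρ := hρ₀.div_const m
  have hη : ContDiff ℝ ∞ η := (hPs.comp hg).div_const _
  have hρs : ∀ z, 1 ≤ ‖z‖ → ρ z = 0 := fun z hz => by simp [ρ, ρ₀, hψ0 _ (hg1 z hz)]
  have hηs : ∀ z, 1 ≤ ‖z‖ → η z = 0 := fun z hz => by simp [η, hP0 _ (hg1 z hz)]
  have hpd : ∀ i z, pd i η z = -(z i * ρ z) := fun i z => by
    have h1 := ((hP (g z)).comp_hasFDerivAt z
      (hasStrictFDerivAt_norm_sq z).hasFDerivAt).mul_const (2 * m)⁻¹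
    rw [pd, show η = fun y => (P ∘ g) y * (2 * m)⁻¹ from
      funext fun y => by simp [η, div_eq_mul_inv], h1.fderiv]
    simp [ρ, ρ₀, g, EuclideanSpace.inner_single_right]
    field_simp
  have hρc := hasCompactSupport_of_unit hρs
  have hηc := hasCompactSupport_of_unit hηs
  obtain ⟨A₁, h1⟩ := hρ.continuous.bounded_above_of_compact_support hρc
  have hex : ∀ {f : Euc d → ℝ}, ContDiff ℝ ∞ f → HasCompactSupport f → ∃ B : ℝ, 0 ≤ B ∧
      ∀ i z, |pd i f z| ≤ B := fun {f} hf hfs => by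
    obtain ⟨D, hD⟩ := lipschitzWith_of_test hf hfs
    exact ⟨D, D.2, abs_pd_le hD⟩
  obtain ⟨A₂, hA₂, h2⟩ := hex hρ hρc
  obtain ⟨A₃, hA₃, h3⟩ := hex hη hηc
  obtain ⟨A₄, h4⟩ := (continuous_lap hη).bounded_above_of_compact_support
    (HasCompactSupport.of_support_subset_isCompact hηc.isCompact fun z hz => by
      by_contra h
      exact hz (lap_eq_zero h))
  refine ⟨⟨ρ, η, expNegInvGlue (1 / 2) / m, max (max A₁ A₂) (max A₃ A₄), hρ, hη, hρs, hηs,
    fun z => div_nonneg (hψn _) hm.le, fun z => div_nonneg (hPn _) (by positivity), ?_, hpd,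
    div_pos (expNegInvGlue.pos_of_pos (by norm_num)) hm, fun z hz => ?_, ?_, ?_, ?_, ?_, ?_⟩⟩
  · rw [integral_div, div_self hm.ne']
  · refine div_le_div_of_nonneg_right (expNegInvGlue.monotone ?_) hm.le
    have : ‖z‖ ^ 2 ≤ (1 / 2) ^ 2 := pow_le_pow_left₀ (norm_nonneg _) hz 2
    simp only [g]
    linarith
  · exact le_max_of_le_left (le_max_of_le_right hA₂)
  · exact fun z => le_max_of_le_left (le_max_of_le_left (h1 z))
  · exact fun i z => le_max_of_le_left (le_max_of_le_right (h2 i z))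
  · exact fun i z => le_max_of_le_right (le_max_of_le_left (h3 i z))
  · exact fun z => le_max_of_le_right (le_max_of_le_right (h4 z))

/-! ### Scaling -/

/-- The dilation `r ^ (-d) f (z / r)`. -/
noncomputable def scaled (f : Euc d → ℝ) (r : ℝ) (z : Euc d) : ℝ :=
  (r ^ d)⁻¹ * f (r⁻¹ • z)

lemma scaled_eq_zero (hf : ∀ z, 1 ≤ ‖z‖ → f z = 0) {r : ℝ} (hr : 0 < r) {z : Euc d}
    (hz : r ≤ ‖z‖) : scaled f r z = 0 := by
  rw [scaled, hf, mul_zero]
  rw [norm_smul, norm_inv, Real.norm_eq_abs, abs_of_pos hr, inv_mul_eq_div, le_div_iff₀ hr, one_mul]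
  exact hz

lemma contDiff_scaled (hf : ContDiff ℝ ∞ f) (r : ℝ) : ContDiff ℝ ∞ (scaled f r) :=
  contDiff_const.mul (hf.comp (contDiff_id.const_smul r⁻¹))

lemma hasCompactSupport_scaled (hf : ∀ z, 1 ≤ ‖z‖ → f z = 0) {r : ℝ} (hr : 0 < r) :
    HasCompactSupport (scaled f r) :=
  HasCompactSupport.intro (isCompact_closedBall (0 : Euc d) r) fun z hz => scaled_eq_zero hf hr (by
    rw [mem_closedBall, dist_zero_right, not_le] at hz
    exact hz.le)

lemma pd_scaled (hf : ContDiff ℝ ∞ f) (r : ℝ) (i : Fin d) :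
    pd i (scaled f r) = fun z => r⁻¹ * scaled (pd i f) r z := by
  funext z
  have h := (((hf.differentiable (by simp) (r⁻¹ • z)).hasFDerivAt).comp z
    ((hasFDerivAt_id z).const_smul r⁻¹)).const_mul (r ^ d)⁻¹
  rw [pd, show scaled f r = fun y => (r ^ d)⁻¹ * (f ∘ fun y => r⁻¹ • y) y from rfl, h.fderiv]
  simp [scaled, pd]
  ring

lemma lap_scaled (hf : ContDiff ℝ ∞ f) (r : ℝ) (z : Euc d) :
    lap (scaled f r) z = r⁻¹ ^ 2 * scaled (lap f) r z := by
  have e : ∀ i, pd i (pd i (scaled f r)) z = r⁻¹ ^ 2 * scaled (pd i (pd i f)) r z := fun i => by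
    rw [pd_scaled hf r i, pd, fderiv_const_mul
      ((contDiff_scaled (contDiff_pd_infty hf i) r).differentiable (by simp)).differentiableAt]
    show r⁻¹ * pd i (scaled (pd i f) r) z = _
    rw [pd_scaled (contDiff_pd_infty hf i) r i]
    ring
  simp only [lap, e, scaled, Finset.mul_sum]

lemma integral_scaled (f : Euc d → ℝ) {r : ℝ} (hr : 0 < r) : ∫ z, scaled f r z = ∫ z, f z := by
  simp only [scaled]
  rw [integral_const_mul, Measure.integral_comp_inv_smul_of_nonneg volume f hr.le,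
    finrank_euclideanSpace_fin, smul_eq_mul, ← mul_assoc, inv_mul_cancel₀ (pow_pos hr d).ne',
    one_mul]

lemma abs_scaled_le {A : ℝ} (hf : ∀ z, |f z| ≤ A) {r : ℝ} (hr : 0 < r) (z : Euc d) :
    |scaled f r z| ≤ (r ^ d)⁻¹ * A := by
  rw [scaled, abs_mul, abs_of_pos (inv_pos.2 (pow_pos hr d))]
  exact mul_le_mul_of_nonneg_left (hf _) (by positivity)

namespace Kern

variable (k : Kern d)

lemma lap_η (z : Euc d) : lap k.η z = -((d : ℝ) * k.ρ z + fderiv ℝ k.ρ z z) := by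
  have e : ∀ i, pd i (pd i k.η) z = -(k.ρ z + z i * pd i k.ρ z) := fun i => by
    rw [show pd i k.η = fun y => -(y i * k.ρ y) from funext (k.pd_η i)]
    have h := (((EuclideanSpace.proj (𝕜 := ℝ) i).hasFDerivAt (x := z)).mul
      (k.ρ_smooth.differentiable (by simp) z).hasFDerivAt).neg
    rw [pd, show (fun y : Euc d => -(y i * k.ρ y)) = -(⇑(EuclideanSpace.proj (𝕜 := ℝ) i) * k.ρ)
      from rfl, h.fderiv]
    simp [pd]
    ring
  have h2 : fderiv ℝ k.ρ z z = ∑ i, z i * pd i k.ρ z := by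
    conv_lhs => arg 2; rw [← (EuclideanSpace.basisFun (Fin d) ℝ).sum_repr z]
    simp [pd]
  simp only [lap, e, Finset.sum_neg_distrib, Finset.sum_add_distrib]
  rw [h2]
  simp

/-- The derivative in the radius of the scaled kernel. -/
lemma hasDerivAt_scaled {r : ℝ} (hr : 0 < r) (z : Euc d) :
    HasDerivAt (fun s => scaled k.ρ s z) (r * lap (scaled k.η r) z) r := by
  have h := ((hasDerivAt_pow d r).inv (pow_pos hr d).ne').mul
    (((k.ρ_smooth.differentiable (by simp) (r⁻¹ • z)).hasFDerivAt).comp_hasDerivAt r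
      ((hasDerivAt_inv hr.ne').smul_const z))
  refine h.congr_deriv ?_
  rw [lap_scaled k.η_smooth, scaled, k.lap_η]
  simp only [map_smul, smul_eq_mul]
  simp only [Function.comp_apply, Pi.inv_apply]
  rcases Nat.eq_zero_or_pos d with rfl | hd
  · simp
    field_simp
  · obtain ⟨n, rfl⟩ : ∃ n, d = n + 1 := ⟨d - 1, by omega⟩
    simp only [Nat.add_sub_cancel, pow_succ, neg_mul]
    field_simp
    ring

lemma ρr_nonneg {r : ℝ} (hr : 0 < r) (z : Euc d) : 0 ≤ scaled k.ρ r z :=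
  mul_nonneg (by positivity) (k.ρ_nonneg _)

lemma low_le_scaled {r : ℝ} (hr : 0 < r) {z : Euc d} (hz : ‖z‖ ≤ r / 2) :
    (r ^ d)⁻¹ * k.low ≤ scaled k.ρ r z := by
  refine mul_le_mul_of_nonneg_left (k.low_le _ ?_) (by positivity)
  rw [norm_smul, norm_inv, Real.norm_eq_abs, abs_of_pos hr, inv_mul_eq_div, div_le_iff₀ hr]
  linarith

end Kern

end Vale.Agent.P098
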