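import Vale.Agent.P098.Regularity.B2.Interior
import Vale.Agent.P098.Regularity.Assemble.Scale

/-!
P098, block B2: nondegeneracy. Cutting a minimizer below `4b (|y - x| - r/2)₊` shows that a
minimizer at most `b r` on a ball fills at most `16 b²` of the half ball, so subharmonicity makes
it much smaller on the quarter ball.
-/

open MeasureTheory Filter Metric
open scoped Topology ContDiff NNReal

namespace Vale.Agent.P098

variable {d : ℕ} {u w : Euc d → ℝ} {C : ℝ≥0}

/-- The cone vanishing on the half ball. -/
noncomputable def innerCone (x : Euc d) (r b : ℝ) (y : Euc d) : ℝ :=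
  4 * b * max (dist y x - r / 2) 0

lemma lipschitz_innerCone (x : Euc d) (r : ℝ) {b : ℝ} (hb : 0 ≤ b) :
    LipschitzWith (4 * b).toNNReal (innerCone x r b) := by
  refine LipschitzWith.of_le_add_mul _ fun y z => ?_
  rw [Real.coe_toNNReal _ (by positivity), innerCone, innerCone, ← mul_add]
  refine mul_le_mul_of_nonneg_left (max_le ?_ ?_) (by positivity)
  · linarith [dist_triangle y z x, le_max_left (dist z x - r / 2) 0]
  · linarith [dist_nonneg (x := y) (y := z), le_max_right (dist z x - r / 2) 0]

/-- A minimizer at most `b r` on a ball fills little of the half ball. -/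
theorem IsGlobalMinimizer.measure_pos_le (hw : IsGlobalMinimizer w) (hL : LipschitzWith C w)
    (hn : ∀ y, 0 ≤ w y) {x : Euc d} {r b : ℝ} (hr : 0 < r) (hb : 0 ≤ b)
    (hle : ∀ y ∈ closedBall x r, w y ≤ b * r) :
    volume.real (posSet w ∩ closedBall x (r / 2)) ≤ 16 * b ^ 2 * (r ^ d * ballVol d) := by
  set g := innerCone x r b with hgdef
  have hg := lipschitz_innerCone x r hb
  set v : Euc d → ℝ := fun y => min (w y) (g y) with hv
  have hg0 : ∀ y, 0 ≤ g y := fun y => mul_nonneg (by positivity) (le_max_right _ _)
  have hv0 : ∀ y, 0 ≤ v y := fun y => le_min (hn y) (hg0 y)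
  have hvL := hL.min hg
  have := isFiniteMeasure_restrict (isBounded_ball : Bornology.IsBounded (ball x r))
  set H := hw.energyR_le hL (c := x) (R := r) (memLp_lipschitz hvL x r)
    (hasWeakGrad_pd hvL isBounded_ball) (Eventually.of_forall hv0)
    ⟨closedBall x (3 * r / 4), isCompact_closedBall _ _, closedBall_subset_ball (by linarith), by
      filter_upwards [ae_restrict_mem measurableSet_ball] with y hy hy'
      rw [mem_closedBall, not_le] at hy'
      refine min_eq_left ((hle y (ball_subset_closedBall hy)).trans ?_)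
      have h1 : r / 4 ≤ max (dist y x - r / 2) 0 := le_max_of_le_left (by linarith)
      calc b * r = 4 * b * (r / 4) := by ring
        _ ≤ g y := mul_le_mul_of_nonneg_left h1 (by positivity)⟩ with hH
  have hgrad : ∀ᵐ y, ∑ i, pd i v y ^ 2 ≤ (∑ i, pd i w y ^ 2) + 16 * b ^ 2 := by
    filter_upwards [hL.ae_differentiableAt, hvL.ae_differentiableAt] with y hwd hvd
    rcases le_or_gt (w y) (g y) with h | h
    · have hmin : IsLocalMin (fun z => w z - v z) y := Eventually.of_forall fun z => by
        simp only [hv, min_eq_left h, sub_self, sub_nonneg]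
        exact min_le_left _ _
      have := hmin.fderiv_eq_zero
      rw [fderiv_fun_sub hwd hvd, sub_eq_zero] at this
      rw [sum_pd_sq_eq, sum_pd_sq_eq, ← this]
      linarith [sq_nonneg b]
    · have he : v =ᶠ[𝓝 y] g := by
        filter_upwards [(hg.continuous.sub hL.continuous).continuousAt.eventually
          (gt_mem_nhds (sub_neg.2 h))] with z hz
        exact min_eq_right (sub_neg.1 hz).le
      rw [sum_pd_sq_eq v, he.fderiv_eq]
      have h1 := pow_le_pow_left₀ (norm_nonneg _) (norm_fderiv_le_of_lipschitz ℝ hg (x₀ := y)) 2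
      rw [Real.coe_toNNReal _ (by positivity)] at h1
      have : 0 ≤ ∑ i, pd i w y ^ 2 := Finset.sum_nonneg fun _ _ => sq_nonneg _
      linarith [show (4 * b) ^ 2 = 16 * b ^ 2 by ring]
  have hint : ∫ y in ball x r, ∑ i, pd i v y ^ 2 ≤
      (∫ y in ball x r, ∑ i, pd i w y ^ 2) + 16 * b ^ 2 * (r ^ d * ballVol d) := by
    have hc : IntegrableOn (fun _ => 16 * b ^ 2) (ball x r) (volume : Measure (Euc d)) :=
      integrable_const _
    refine (integral_mono_ae (integrableOn_sum_sq (memLp_pd hvL isBounded_ball))
      ((integrableOn_sum_sq (memLp_pd hL isBounded_ball)).add hc)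
      (ae_restrict_of_ae hgrad)).trans ?_
    simp only [Pi.add_apply]
    rw [integral_add (integrableOn_sum_sq (memLp_pd hL isBounded_ball)) hc, setIntegral_const,
      smul_eq_mul, mul_comm (volume.real (ball x r)), ← volume_real_closedBall x hr.le]
    gcongr
    · exact measure_closedBall_lt_top.ne
    · exact ball_subset_closedBall
  have hsub : posSet v ⊆ posSet w \ closedBall x (r / 2) := fun y hy => by
    simp only [posSet, Set.mem_ofPred_eq, hv, lt_min_iff] at hy
    refine ⟨hy.1, fun hc => hy.2.ne' ?_⟩
    rw [mem_closedBall] at hc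
    simp only [hgdef, innerCone]
    rw [max_eq_right (by linarith), mul_zero]
  have hsplit := measureReal_inter_add_sdiff (μ := volume.restrict (ball x r)) (s := posSet w)
    (t := closedBall x (r / 2)) measurableSet_closedBall
  have hmono := measureReal_mono (μ := volume.restrict (ball x r)) hsub
  have hin : (volume.restrict (ball x r)).real (posSet w ∩ closedBall x (r / 2)) =
      volume.real (posSet w ∩ closedBall x (r / 2)) := by
    have hm' : MeasurableSet (posSet w ∩ closedBall x (r / 2)) :=
      (isOpen_lt continuous_const hL.continuous).measurableSet.inter measurableSet_closedBall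
    rw [measureReal_restrict_apply hm', Set.inter_eq_left.2 (Set.inter_subset_right.trans
      (closedBall_subset_ball (by linarith)))]
  have := H
  simp only [energyR] at this
  linarith

namespace Kern

variable (k : Kern d)

/-- The gain from one scale to a quarter of it. -/
noncomputable def gain : ℝ := 64 * 4 ^ d * k.A * ballVol d

lemma pot_congr (hu : IsGlobalMinimizer u) (r : ℝ) (x : Euc d) :
    k.pot u r x = k.pot (k.rep u) r x := by
  refine integral_congr_ae ?_
  filter_upwards [k.rep_ae_eq hu] with y hy
  rw [hy]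

/-- One step of the iteration. -/
theorem rep_le_cube (hu : IsGlobalMinimizer u) {x : Euc d} {r b : ℝ} (hr : 0 < r) (hb : 0 ≤ b)
    (hle : ∀ y ∈ closedBall x r, k.rep u y ≤ b * r) {y : Euc d} (hy : y ∈ closedBall x (r / 4)) :
    k.rep u y ≤ k.gain * b ^ 3 * (r / 4) := by
  set w := k.rep u with hwdef
  have hw : IsGlobalMinimizer w := hu.congr_ae (k.rep_ae_eq hu)
  have hA := k.A_nonneg
  have hV := ballVol_nonneg (d := d)
  have hr4 : 0 < r / 4 := by positivity
  have hm := hw.measure_pos_le (k.lipschitz_rep hu) (k.rep_nonneg hu) hr hb hle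
  set S := posSet w ∩ closedBall x (r / 2) with hSdef
  have hS : MeasurableSet S := (k.isOpen_pos hu).measurableSet.inter measurableSet_closedBall
  have hSfin : volume S < ⊤ :=
    (measure_mono Set.inter_subset_right).trans_lt measure_closedBall_lt_top
  refine (k.rep_le_pot hu hr4 y).trans ?_
  rw [k.pot_congr hu, pot, avgWith]
  have : ∫ z, scaled k.ρ (r / 4) (y - z) * w z ≤
      ∫ z, S.indicator (fun _ => ((r / 4) ^ d)⁻¹ * k.A * (b * r)) z := by
    refine integral_mono (k.integrable_pot hw hr4 y)
      ((integrable_indicator_iff hS).2 (integrableOn_const hSfin.ne)) fun z => ?_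
    by_cases hz : z ∈ S
    · rw [Set.indicator_of_mem hz]
      refine mul_le_mul ((le_abs_self _).trans (abs_scaled_le k.ρ_le hr4 _)) (hle z ?_)
        (k.rep_nonneg hu z) (by positivity)
      exact closedBall_subset_closedBall (by linarith) hz.2
    · rw [Set.indicator_of_notMem hz]
      by_cases hzw : z ∈ posSet w
      · have hzb : z ∉ closedBall x (r / 2) := fun h => hz ⟨hzw, h⟩
        have : r / 4 ≤ ‖y - z‖ := by
          rw [mem_closedBall, not_le] at hzb
          rw [mem_closedBall] at hy
          rw [← dist_eq_norm]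
          linarith [dist_triangle z y x, dist_comm z y]
        rw [scaled_eq_zero k.ρ_supp hr4 this, zero_mul]
      · rw [show w z = 0 from le_antisymm (not_lt.1 hzw) (k.rep_nonneg hu z), mul_zero]
  refine this.trans ?_
  rw [integral_indicator_const _ hS, smul_eq_mul]
  calc volume.real S * (((r / 4) ^ d)⁻¹ * k.A * (b * r))
      ≤ 16 * b ^ 2 * (r ^ d * ballVol d) * (((r / 4) ^ d)⁻¹ * k.A * (b * r)) :=
        mul_le_mul_of_nonneg_right hm (by positivity)
    _ = k.gain * b ^ 3 * (r / 4) := by
        rw [gain, div_pow]
        field_simp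
        ring

/-- The nondegeneracy constant. -/
noncomputable def lowConst : ℝ := 1 / (2 * (k.gain + 1))

lemma lowConst_pos : 0 < k.lowConst := by
  have := k.A_nonneg
  have := ballVol_nonneg (d := d)
  rw [lowConst, gain]
  positivity

theorem nondeg_rep (hu : IsGlobalMinimizer u) {x₀ : Euc d} (hx : x₀ ∈ closure (posSet (k.rep u)))
    {r : ℝ} (hr : 0 < r) : ∃ y ∈ closedBall x₀ r, k.lowConst * r ≤ k.rep u y := by
  by_contra! h
  set b := 2 * k.lowConst with hbdef
  have hb : 0 ≤ b := by linarith [k.lowConst_pos]
  have hA := k.A_nonneg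
  have hV := ballVol_nonneg (d := d)
  have hG : 0 ≤ k.gain := by rw [gain]; positivity
  have hgain : k.gain * b ^ 2 ≤ 1 := by
    rw [hbdef, lowConst, show 2 * (1 / (2 * (k.gain + 1))) = 1 / (k.gain + 1) by field_simp,
      div_pow, one_pow, ← mul_div_assoc, mul_one, div_le_one (by positivity)]
    nlinarith
  have hzero : ∀ y ∈ ball x₀ (r / 2), k.rep u y = 0 := fun y hy => by
    have hit : ∀ n : ℕ, ∀ z ∈ closedBall y (r / 2 / 4 ^ n), k.rep u z ≤ b * (r / 2 / 4 ^ n) := by
      intro n
      induction n with
      | zero =>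
        intro z hz
        simp only [pow_zero, div_one, mem_closedBall] at hz ⊢
        rw [mem_ball] at hy
        have := (h z (by rw [mem_closedBall]; linarith [dist_triangle z y x₀])).le
        linarith [show b * (r / 2) = k.lowConst * r by rw [hbdef]; ring]
      | succ n ih =>
        intro z hz
        have e : r / 2 / 4 ^ (n + 1) = r / 2 / 4 ^ n / 4 := by rw [pow_succ]; ring
        rw [e] at hz ⊢
        refine (k.rep_le_cube hu (by positivity) hb ih hz).trans ?_
        have : k.gain * b ^ 3 ≤ b := by nlinarith [mul_le_mul_of_nonneg_left hgain hb]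
        exact mul_le_mul_of_nonneg_right this (by positivity)
    refine le_antisymm (ge_of_tendsto' (x := atTop) (f := fun n : ℕ => b * (r / 2 / 4 ^ n)) ?_
      fun n => hit n y (mem_closedBall_self (by positivity)))
      (k.rep_nonneg hu y)
    simpa [div_eq_mul_inv, ← inv_pow] using ((tendsto_pow_atTop_nhds_zero_of_lt_one
      (by norm_num : (0 : ℝ) ≤ 4⁻¹) (by norm_num)).const_mul (r / 2)).const_mul b
  obtain ⟨y, hy, hyd⟩ := Metric.mem_closure_iff.1 hx (r / 2) (by positivity)
  exact (ne_of_gt hy) (hzero y (by rw [mem_ball, dist_comm]; exact hyd))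

end Kern

end Vale.Agent.P098
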