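import Vale.Agent.P098.Regularity.B2.Kernel

/-!
P098, block B2: the means of a global minimizer against the scaled kernel increase in the radius
with bounded speed; their infimum is a continuous representative.
-/

open MeasureTheory Filter Metric
open scoped Topology ContDiff NNReal

namespace Vale.Agent.P098

variable {d : ℕ} {u f φ : Euc d → ℝ}

/-- The volume of the unit ball. -/
noncomputable def ballVol (d : ℕ) : ℝ := volume.real (ball (0 : Euc d) 1)

lemma ballVol_nonneg : 0 ≤ ballVol d := measureReal_nonneg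

lemma volume_real_closedBall (x : Euc d) {r : ℝ} (hr : 0 ≤ r) :
    volume.real (closedBall x r) = r ^ d * ballVol d := by
  rw [Measure.addHaar_real_closedBall volume x hr, finrank_euclideanSpace_fin]; rfl

lemma lap_comp_sub (hf : ContDiff ℝ ∞ f) (x y : Euc d) :
    lap (fun z => f (x - z)) y = lap f (x - y) := by
  refine Finset.sum_congr rfl fun i _ => ?_
  rw [show pd i (fun z => f (x - z)) = fun z => -pd i f (x - z) from
    funext fun z => pd_comp_sub (hf.of_le (by simp)) i x z]
  rw [pd, fderiv_fun_neg, _root_.neg_apply]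
  show -pd i (fun z => pd i f (x - z)) y = _
  rw [pd_comp_sub ((contDiff_pd_infty hf i).of_le (by simp)) i x y, neg_neg]

namespace Kern

variable (k : Kern d)

/-- The mean of `u` at scale `r`. -/
noncomputable def pot (u : Euc d → ℝ) (r : ℝ) (x : Euc d) : ℝ := avgWith (scaled k.ρ r) u x

/-- The potential at scale `r` seen from `x`. -/
noncomputable def test (r : ℝ) (x : Euc d) : Euc d → ℝ := fun y => scaled k.η r (x - y)

/-- The bound of the radial derivative. -/
noncomputable def speed : ℝ := ((d : ℝ) * k.A ^ 2 + 1) * ballVol d / 2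

lemma speed_nonneg : 0 ≤ k.speed := by
  have := ballVol_nonneg (d := d)
  rw [speed]
  positivity

lemma contDiff_test (r : ℝ) (x : Euc d) : ContDiff ℝ ∞ (k.test r x) :=
  (contDiff_scaled k.η_smooth r).comp (contDiff_const.sub contDiff_id)

lemma tsupport_test {r : ℝ} (hr : 0 < r) (x : Euc d) : tsupport (k.test r x) ⊆ closedBall x r :=
  closure_minimal (fun y hy => by
    by_contra h
    rw [mem_closedBall, dist_eq_norm, norm_sub_rev, not_le] at h
    exact hy (scaled_eq_zero k.η_supp hr h.le)) isClosed_closedBall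

lemma hasCompactSupport_test {r : ℝ} (hr : 0 < r) (x : Euc d) :
    HasCompactSupport (k.test r x) :=
  (isCompact_closedBall x r).of_isClosed_subset (isClosed_tsupport _) (k.tsupport_test hr x)

lemma test_nonneg {r : ℝ} (hr : 0 < r) (x y : Euc d) : 0 ≤ k.test r x y :=
  mul_nonneg (by positivity) (k.η_nonneg _)

lemma abs_pd_test_le {r : ℝ} (hr : 0 < r) (x y : Euc d) (i : Fin d) :
    |pd i (k.test r x) y| ≤ r⁻¹ * ((r ^ d)⁻¹ * k.A) := by
  rw [show k.test r x = fun z => scaled k.η r (x - z) from rfl, pd_comp_sub ((contDiff_scaled k.η_smooth r).of_le (by simp)) i x y, abs_neg,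
    pd_scaled k.η_smooth r i]
  dsimp only
  rw [abs_mul, abs_of_pos (inv_pos.2 hr)]
  exact mul_le_mul_of_nonneg_left (abs_scaled_le (k.pd_η_le i) hr _) (by positivity)

lemma integrable_pot (hu : IsGlobalMinimizer u) {r : ℝ} (hr : 0 < r) (x : Euc d) :
    Integrable fun y => scaled k.ρ r (x - y) * u y :=
  integrable_kernel_mul (contDiff_scaled k.ρ_smooth r).continuous
    (hasCompactSupport_scaled k.ρ_supp hr) hu.locallyIntegrable x

lemma pot_nonneg (hu : IsGlobalMinimizer u) {r : ℝ} (hr : 0 < r) (x : Euc d) :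
    0 ≤ k.pot u r x :=
  integral_nonneg_of_ae (hu.1.mono fun y hy => mul_nonneg (k.ρr_nonneg hr _) hy)

lemma contDiff_pot (hu : IsGlobalMinimizer u) {r : ℝ} (hr : 0 < r) :
    ContDiff ℝ ∞ (k.pot u r) :=
  contDiff_avgWith (contDiff_scaled k.ρ_smooth r) (hasCompactSupport_scaled k.ρ_supp hr)
    hu.locallyIntegrable

/-- The derivative of the means in the radius. -/
theorem hasDerivAt_pot (hu : IsGlobalMinimizer u) {r : ℝ} (hr : 0 < r) (x : Euc d) :
    HasDerivAt (fun s => k.pot u s x) (r * mu u (k.test r x)) r := by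
  have hlap : ∀ s y, lap (k.test s x) y = lap (scaled k.η s) (x - y) := fun s y =>
    lap_comp_sub (contDiff_scaled k.η_smooth s) x y
  set B : ℝ := (r / 2)⁻¹ * (((r / 2) ^ d)⁻¹ * k.A) with hB
  have hA := k.A_nonneg
  set bound : Euc d → ℝ := (closedBall x (2 * r)).indicator fun y => B * |u y|
  have hbi : Integrable bound := (integrable_indicator_iff measurableSet_closedBall).2
    ((hu.locallyIntegrable.integrableOn_isCompact (isCompact_closedBall _ _)).abs.const_mul B)
  have hb : ∀ y, ∀ s ∈ Set.Ioo (r / 2) (2 * r),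
      ‖s * lap (scaled k.η s) (x - y) * u y‖ ≤ bound y := fun y s hs => by
    have hs0 : 0 < s := by linarith [hs.1]
    rw [Real.norm_eq_abs]
    by_cases hy : y ∈ closedBall x (2 * r)
    · simp only [bound, Set.indicator_of_mem hy]
      rw [abs_mul, abs_mul, abs_of_pos hs0, lap_scaled k.η_smooth, abs_mul,
        abs_of_nonneg (sq_nonneg s⁻¹)]
      refine mul_le_mul_of_nonneg_right ?_ (abs_nonneg _)
      calc s * (s⁻¹ ^ 2 * |scaled (lap k.η) s (x - y)|)
          = s⁻¹ * |scaled (lap k.η) s (x - y)| := by field_simp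
        _ ≤ s⁻¹ * ((s ^ d)⁻¹ * k.A) :=
          mul_le_mul_of_nonneg_left (abs_scaled_le k.lap_η_le hs0 _) (by positivity)
        _ ≤ B := by
          rw [hB]
          gcongr <;> exact hs.1.le
    · rw [mem_closedBall, dist_eq_norm, norm_sub_rev, not_le] at hy
      have hz : lap (scaled k.η s) (x - y) = 0 := lap_eq_zero fun h => by
        have h2 := closure_minimal (t := closedBall (0 : Euc d) s) (fun z hz => by
          by_contra hc
          rw [mem_closedBall, dist_zero_right, not_le] at hc
          exact hz (scaled_eq_zero k.η_supp hs0 hc.le)) isClosed_closedBall h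
        rw [mem_closedBall, dist_zero_right] at h2
        linarith [hs.2]
      rw [hz, mul_zero, zero_mul, abs_zero]
      exact Set.indicator_apply_nonneg fun _ => by positivity
  have hmeas : AEStronglyMeasurable (fun y => r * lap (scaled k.η r) (x - y) * u y) volume :=
    ((continuous_const.mul ((continuous_lap (contDiff_scaled k.η_smooth r)).comp
      (continuous_const.sub continuous_id))).aestronglyMeasurable).mul
      hu.locallyIntegrable.aestronglyMeasurable
  have h := (hasDerivAt_integral_of_dominated_loc_of_deriv_le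
    (F := fun s y => scaled k.ρ s (x - y) * u y)
    (F' := fun s y => s * lap (scaled k.η s) (x - y) * u y)
    (Ioo_mem_nhds (by linarith : r / 2 < r) (by linarith : r < 2 * r))
    (by
      filter_upwards [eventually_gt_nhds hr] with s hs
      exact (k.integrable_pot hu hs x).1)
    (k.integrable_pot hu hr x) hmeas (Eventually.of_forall hb) hbi
    (Eventually.of_forall fun y s hs =>
      (k.hasDerivAt_scaled (by linarith [hs.1]) (x - y)).mul_const (u y))).2
  refine h.congr_deriv ?_
  rw [mu, ← integral_const_mul]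
  refine integral_congr_ae (Eventually.of_forall fun y => ?_)
  simp only [hlap]
  ring

lemma deriv_pot_nonneg (hu : IsGlobalMinimizer u) {r : ℝ} (hr : 0 < r) (x : Euc d) :
    0 ≤ r * mu u (k.test r x) :=
  mul_nonneg hr.le
    (hu.mu_nonneg (k.contDiff_test r x) (k.hasCompactSupport_test hr x) (k.test_nonneg hr x))

lemma deriv_pot_le (hu : IsGlobalMinimizer u) {r : ℝ} (hr : 0 < r) (x : Euc d) :
    r * mu u (k.test r x) ≤ k.speed := by
  set φ := k.test r x with hφ
  have hV : volume.real (tsupport φ) ≤ r ^ d * ballVol d :=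
    (measureReal_mono (k.tsupport_test hr x) measure_closedBall_lt_top.ne).trans_eq
      (volume_real_closedBall x hr.le)
  have hI : ∫ y, ∑ i, pd i φ y ^ 2 ≤
      (d : ℝ) * (r⁻¹ * ((r ^ d)⁻¹ * k.A)) ^ 2 * (r ^ d * ballVol d) := by
    rw [← setIntegral_eq_integral_of_forall_compl_eq_zero (s := closedBall x r) fun y hy =>
      Finset.sum_eq_zero fun i _ => by
        rw [pd_eq_zero_of_eventually (notMem_tsupport_iff_eventuallyEq.1 fun h =>
          hy (k.tsupport_test hr x h))]
        ring]
    rw [← volume_real_closedBall x hr.le]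
    refine (Real.le_norm_self _).trans (norm_setIntegral_le_of_norm_le_const
      measure_closedBall_lt_top fun y _ => ?_)
    rw [Real.norm_eq_abs, abs_of_nonneg (Finset.sum_nonneg fun i _ => sq_nonneg _)]
    refine (Finset.sum_le_card_nsmul _ _ ((r⁻¹ * ((r ^ d)⁻¹ * k.A)) ^ 2) fun i _ => ?_).trans_eq
      (by simp)
    rw [← sq_abs]
    exact pow_le_pow_left₀ (abs_nonneg _) (k.abs_pd_test_le hr x y i) 2
  have hε : 0 < r * r ^ d := by positivity
  refine (mul_le_mul_of_nonneg_left (hu.mu_le (k.contDiff_test r x)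
    (k.hasCompactSupport_test hr x) (k.test_nonneg hr x) hε) hr.le).trans ?_
  have h1 : r * (r * r ^ d / 2 * ∫ y, ∑ i, pd i φ y ^ 2) ≤
      (d : ℝ) * k.A ^ 2 * ballVol d / 2 := by
    calc r * (r * r ^ d / 2 * ∫ y, ∑ i, pd i φ y ^ 2)
        ≤ r * (r * r ^ d / 2 * ((d : ℝ) * (r⁻¹ * ((r ^ d)⁻¹ * k.A)) ^ 2 *
          (r ^ d * ballVol d))) := by gcongr
      _ = (d : ℝ) * k.A ^ 2 * ballVol d / 2 := by field_simp
  have h2 : r * (volume.real (tsupport φ) / (2 * (r * r ^ d))) ≤ ballVol d / 2 := by
    calc r * (volume.real (tsupport φ) / (2 * (r * r ^ d)))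
        ≤ r * (r ^ d * ballVol d / (2 * (r * r ^ d))) := by gcongr
      _ = ballVol d / 2 := by field_simp
  rw [mul_add, Kern.speed]
  linarith

lemma continuousOn_pot (hu : IsGlobalMinimizer u) (x : Euc d) :
    ContinuousOn (fun s => k.pot u s x) (Set.Ioi 0) := fun _ hs =>
  (k.hasDerivAt_pot hu hs x).continuousAt.continuousWithinAt

/-- The means increase, at speed at most `speed`. -/
theorem pot_mono (hu : IsGlobalMinimizer u) {s r : ℝ} (hs : 0 < s) (hsr : s ≤ r) (x : Euc d) :
    k.pot u s x ≤ k.pot u r x ∧ k.pot u r x ≤ k.pot u s x + k.speed * (r - s) := by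
  have hd : DifferentiableOn ℝ (fun s => k.pot u s x) (interior (Set.Ioi 0)) := fun t ht =>
    (k.hasDerivAt_pot hu (interior_subset ht) x).differentiableAt.differentiableWithinAt
  constructor
  · exact monotoneOn_of_deriv_nonneg (convex_Ioi 0) (k.continuousOn_pot hu x) hd
      (fun t ht => by
        rw [(k.hasDerivAt_pot hu (interior_subset ht) x).deriv]
        exact k.deriv_pot_nonneg hu (interior_subset ht) x) hs (hs.trans_le hsr) hsr
  · have := Convex.image_sub_le_mul_sub_of_deriv_le (convex_Ioi 0) (k.continuousOn_pot hu x) hd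
      (C := k.speed) (fun t ht => by
        rw [(k.hasDerivAt_pot hu (interior_subset ht) x).deriv]
        exact k.deriv_pot_le hu (interior_subset ht) x) s hs r (hs.trans_le hsr) hsr
    linarith

/-- The representative. -/
noncomputable def rep (u : Euc d → ℝ) (x : Euc d) : ℝ :=
  sInf ((fun r => k.pot u r x) '' Set.Ioi 0)

lemma rep_le_pot (hu : IsGlobalMinimizer u) {r : ℝ} (hr : 0 < r) (x : Euc d) :
    k.rep u x ≤ k.pot u r x :=
  csInf_le ⟨0, by rintro _ ⟨s, hs, rfl⟩; exact k.pot_nonneg hu hs x⟩ ⟨r, hr, rfl⟩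

lemma pot_le_rep (hu : IsGlobalMinimizer u) {r : ℝ} (hr : 0 < r) (x : Euc d) :
    k.pot u r x ≤ k.rep u x + k.speed * r := by
  have h : k.pot u r x - k.speed * r ≤ k.rep u x := by
    refine le_csInf (Set.Nonempty.image _ Set.nonempty_Ioi) ?_
    rintro _ ⟨s, hs, rfl⟩
    have hC := k.speed_nonneg
    rcases le_total s r with h | h
    · nlinarith [(k.pot_mono hu hs h x).2, Set.mem_Ioi.1 hs]
    · nlinarith [(k.pot_mono hu hr h x).1]
  linarith

lemma rep_nonneg (hu : IsGlobalMinimizer u) (x : Euc d) : 0 ≤ k.rep u x :=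
  le_csInf (Set.Nonempty.image _ Set.nonempty_Ioi) (by
    rintro _ ⟨s, hs, rfl⟩
    exact k.pot_nonneg hu hs x)

lemma tendsto_pot (hu : IsGlobalMinimizer u) (x : Euc d) :
    Tendsto (fun r => k.pot u r x) (𝓝[>] 0) (𝓝 (k.rep u x)) := by
  refine tendsto_of_tendsto_of_tendsto_of_le_of_le' tendsto_const_nhds
    (h := fun r => k.rep u x + k.speed * r) ?_ ?_ ?_
  · simpa using (tendsto_const_nhds.add (tendsto_id.const_mul k.speed)).mono_left
      (nhdsWithin_le_nhds (a := (0 : ℝ)) (s := Set.Ioi 0))
  · exact eventually_nhdsWithin_of_forall fun r hr => k.rep_le_pot hu hr x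
  · exact eventually_nhdsWithin_of_forall fun r hr => k.pot_le_rep hu hr x

theorem continuous_rep (hu : IsGlobalMinimizer u) : Continuous (k.rep u) := by
  refine Metric.continuous_iff.2 fun x ε hε => ?_
  have hC := k.speed_nonneg
  set r := ε / (3 * (k.speed + 1))
  have hr : 0 < r := by positivity
  have h3 : k.speed * r ≤ ε / 3 := by
    simp only [r]
    rw [mul_div_assoc', div_le_div_iff₀ (by positivity) (by norm_num)]
    nlinarith
  obtain ⟨δ, hδ, h⟩ := Metric.continuous_iff.1 (k.contDiff_pot hu hr).continuous x (ε / 3)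
    (by positivity)
  refine ⟨δ, hδ, fun y hy => ?_⟩
  have h1 := abs_lt.1 (h y hy)
  rw [Real.dist_eq, abs_lt]
  have := k.rep_le_pot hu hr x
  have := k.rep_le_pot hu hr y
  have := k.pot_le_rep hu hr x
  have := k.pot_le_rep hu hr y
  constructor <;> linarith

/-- The representative agrees with the minimizer almost everywhere. -/
theorem rep_ae_eq (hu : IsGlobalMinimizer u) : k.rep u =ᵐ[volume] u := by
  filter_upwards [(Besicovitch.vitaliFamily (volume : Measure (Euc d))).ae_tendsto_average_norm_sub
    hu.locallyIntegrable] with x h₀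
  refine tendsto_nhds_unique (k.tendsto_pot hu x) ?_
  have hl : Tendsto (fun r => ⨍ y in closedBall x r, ‖u y - u x‖) (𝓝[>] 0) (𝓝 0) :=
    h₀.comp (Besicovitch.tendsto_filterAt volume x)
  refine tendsto_integral_smul_of_tendsto_average_norm_sub (μ := volume)
    (a := fun r => closedBall x r) (g := fun r y => scaled k.ρ r (x - y)) (k.A * ballVol d) hl
    ?_ ?_ ?_ ?_
  · exact Eventually.of_forall fun r =>
      hu.locallyIntegrable.integrableOn_isCompact (isCompact_closedBall _ _)
  · refine tendsto_const_nhds.congr' ?_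
    filter_upwards [self_mem_nhdsWithin] with r hr
    rw [integral_sub_left_eq_self (fun y => scaled k.ρ r y) volume x, integral_scaled _ hr,
      k.integral_ρ]
  · filter_upwards [self_mem_nhdsWithin] with r hr y hy
    by_contra h
    rw [mem_closedBall, dist_eq_norm, norm_sub_rev, not_le] at h
    exact hy (scaled_eq_zero k.ρ_supp hr h.le)
  · filter_upwards [self_mem_nhdsWithin] with r hr y
    have hr' : (0 : ℝ) < r := hr
    refine (abs_scaled_le k.ρ_le hr' _).trans_eq ?_
    have hV : 0 < ballVol d := ENNReal.toReal_pos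
      (measure_ball_pos volume (0 : Euc d) one_pos).ne' measure_ball_lt_top.ne
    rw [volume_real_closedBall x hr'.le]
    field_simp

/-- The mass of a ball is controlled by the value at its centre. -/
theorem setIntegral_ball_le (hu : IsGlobalMinimizer u) {s : ℝ} (hs : 0 < s) (x : Euc d) :
    ∫ y in ball x s, u y ≤ (2 * s) ^ d / k.low * (k.rep u x + k.speed * (2 * s)) := by
  have h2 : (0 : ℝ) < 2 * s := by positivity
  have hl := k.low_pos
  have h : ((2 * s) ^ d)⁻¹ * k.low * ∫ y in ball x s, u y ≤ k.pot u (2 * s) x := by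
    rw [pot, avgWith, ← integral_const_mul]
    refine (setIntegral_mono_on_ae ?_ (k.integrable_pot hu h2 x).integrableOn measurableSet_ball
      ?_).trans (setIntegral_le_integral (k.integrable_pot hu h2 x)
        (hu.1.mono fun y hy => mul_nonneg (k.ρr_nonneg h2 _) hy))
    · exact ((hu.locallyIntegrable.integrableOn_isCompact (isCompact_closedBall x s)).mono_set
        ball_subset_closedBall).const_mul _
    · filter_upwards [hu.1] with y hy hyb
      refine mul_le_mul_of_nonneg_right (k.low_le_scaled h2 ?_) hy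
      rw [mem_ball, dist_eq_norm, norm_sub_rev] at hyb
      linarith
  have h' := h.trans (k.pot_le_rep hu h2 x)
  rw [inv_mul_eq_div, div_mul_eq_mul_div, div_le_iff₀ (pow_pos h2 d)] at h'
  rw [div_mul_eq_mul_div, le_div_iff₀ hl]
  linarith

end Kern

end Vale.Agent.P098
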