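import Vale.Agent.P098.Regularity.B2.Chain

/-!
P098, block B2: the two competitors `u + εφ` and `(u - εφ)₊` show that the Laplacian of a global
minimizer is nonnegative and at most `ε/2 |∇φ|² + |supp φ|/(2ε)` against a nonnegative test `φ`,
and zero where the minimizer stays positive.
-/

open MeasureTheory Filter Metric
open scoped Topology ContDiff NNReal

namespace Vale.Agent.P098

variable {d : ℕ} {u φ : Euc d → ℝ}

/-- The Laplacian. -/
noncomputable def lap (φ : Euc d → ℝ) (x : Euc d) : ℝ := ∑ i, pd i (pd i φ) x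

/-- The Laplacian of `u` against a test function. -/
noncomputable def mu (u φ : Euc d → ℝ) : ℝ := ∫ x, u x * lap φ x

lemma continuous_lap (hφ : ContDiff ℝ ∞ φ) : Continuous (lap φ) :=
  continuous_finsetSum _ fun i _ =>
    continuous_pd ((contDiff_pd_infty hφ i).of_le (by simp)) i

lemma lap_eq_zero_of_eventually {x : Euc d} (h : φ =ᶠ[𝓝 x] fun _ => 0) : lap φ x = 0 :=
  Finset.sum_eq_zero fun i _ => pd_eq_zero_of_eventually (by
    filter_upwards [h.eventually_nhds] with y hy
    exact pd_eq_zero_of_eventually hy i) i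

lemma lap_eq_zero {x : Euc d} (hs : x ∉ tsupport φ) : lap φ x = 0 :=
  lap_eq_zero_of_eventually (notMem_tsupport_iff_eventuallyEq.1 hs)

namespace IsGlobalMinimizer

lemma memLp (hu : IsGlobalMinimizer u) (c : Euc d) (R : ℝ) :
    MemLp u 2 (volume.restrict (ball c R)) :=
  (hu.2 c R).1.1

lemma locallyIntegrable (hu : IsGlobalMinimizer u) : LocallyIntegrable u := fun x => by
  refine ⟨ball x 1, ball_mem_nhds x one_pos, ?_⟩
  have := isFiniteMeasure_restrict (isBounded_ball : Bornology.IsBounded (ball x (1 : ℝ)))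
  exact (hu.memLp x 1).integrable one_le_two

lemma mu_eq (hu : IsGlobalMinimizer u) {c : Euc d} {R : ℝ} {g : Fin d → Euc d → ℝ}
    (hg : HasWeakGrad (ball c R) u g) (hφ : ContDiff ℝ ∞ φ) (hs : HasCompactSupport φ)
    (hsub : tsupport φ ⊆ ball c R) :
    mu u φ = -∑ i, ∫ x in ball c R, g i x * pd i φ x := by
  have hd : ∀ i, ContDiff ℝ ∞ (pd i φ) := contDiff_pd_infty hφ
  have e : ∀ i, ∫ x in ball c R, u x * pd i (pd i φ) x = -∫ x in ball c R, g i x * pd i φ x :=
    fun i => hg.2 i _ (hd i) (hasCompactSupport_pd hs i)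
      (((tsupport_fderiv_apply_subset ℝ _).trans subset_rfl).trans hsub)
  have hi : ∀ i, IntegrableOn (fun x => u x * pd i (pd i φ) x) (ball c R) := fun i =>
    integrableOn_mul_of_memLp isBounded_ball (hu.memLp c R)
      (continuous_pd ((hd i).of_le (by simp)) i)
      (hasCompactSupport_pd (hasCompactSupport_pd hs i) i)
  rw [mu, ← setIntegral_eq_integral_of_forall_compl_eq_zero (s := ball c R) fun x hx => by
    simp [lap_eq_zero fun h => hx (hsub h)]]
  simp only [lap, Finset.mul_sum]
  rw [integral_finsetSum _ fun i _ => hi i, ← Finset.sum_neg_distrib]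
  exact Finset.sum_congr rfl fun i _ => e i

lemma energyR_le' (hu : IsGlobalMinimizer u) {v : Euc d → ℝ} {g H : Fin d → Euc d → ℝ}
    {c : Euc d} {R : ℝ} (hg : HasWeakGrad (ball c R) u g)
    (hv : MemLp v 2 (volume.restrict (ball c R))) (hH : HasWeakGrad (ball c R) v H)
    (hn : ∀ᵐ x ∂volume.restrict (ball c R), 0 ≤ v x)
    (hK : ∃ K, IsCompact K ∧ K ⊆ ball c R ∧
      ∀ᵐ x ∂volume.restrict (ball c R), x ∉ K → v x = u x) :
    energyR u g (ball c R) ≤ energyR v H (ball c R) := by
  have h := (hu.2 c R).2 v g H hg hv hH hn hK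
  rwa [sobolevEnergy_eq_ofReal isBounded_ball hg.1, sobolevEnergy_eq_ofReal isBounded_ball hH.1,
    ENNReal.ofReal_le_ofReal_iff (energyR_nonneg _ _ _)] at h

lemma integral_sq_add {c : Euc d} {R : ℝ} {g ψ : Fin d → Euc d → ℝ}
    (hg : ∀ i, MemLp (g i) 2 (volume.restrict (ball c R)))
    (hψ : ∀ i, MemLp (ψ i) 2 (volume.restrict (ball c R))) (s : ℝ) :
    ∫ x in ball c R, ∑ i, (g i x + s * ψ i x) ^ 2 =
      (∫ x in ball c R, ∑ i, g i x ^ 2) + 2 * s * (∑ i, ∫ x in ball c R, g i x * ψ i x) +
        s ^ 2 * ∫ x in ball c R, ∑ i, ψ i x ^ 2 := by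
  have a : ∀ i, IntegrableOn (fun x => g i x * ψ i x) (ball c R) := fun i =>
    (hg i).integrable_mul (hψ i)
  have b : ∀ i, IntegrableOn (fun x => g i x ^ 2) (ball c R) := fun i => (hg i).integrable_sq
  have b' : ∀ i, IntegrableOn (fun x => ψ i x ^ 2) (ball c R) := fun i => (hψ i).integrable_sq
  have e : ∀ i x, (g i x + s * ψ i x) ^ 2 =
      g i x ^ 2 + 2 * s * (g i x * ψ i x) + s ^ 2 * ψ i x ^ 2 := fun i x => by ring
  simp only [e]
  rw [integral_finsetSum _ fun i _ => ((b i).fun_add ((a i).const_mul _)).fun_add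
      ((b' i).const_mul _),
    integral_finsetSum _ fun i _ => b i, integral_finsetSum _ fun i _ => b' i,
    Finset.mul_sum, Finset.mul_sum, ← Finset.sum_add_distrib, ← Finset.sum_add_distrib]
  refine Finset.sum_congr rfl fun i _ => ?_
  rw [integral_add ((b i).fun_add ((a i).const_mul _)) ((b' i).const_mul _),
    integral_add (b i) ((a i).const_mul _), integral_const_mul, integral_const_mul]

/-- The setting of a variation: a ball about the support and a gradient on a larger one. -/
lemma setup (hu : IsGlobalMinimizer u) (hs : HasCompactSupport φ) :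
    ∃ (c : Euc d) (R : ℝ) (g : Fin d → Euc d → ℝ), tsupport φ ⊆ ball c R ∧
      HasWeakGrad (ball c (R + 1)) u g := by
  obtain ⟨R, hR⟩ := hs.isCompact.isBounded.subset_ball 0
  obtain ⟨g, hg⟩ := (hu.2 0 (R + 1)).1.2
  exact ⟨0, R, g, hR, hg⟩

lemma memLp_test (hφ : Continuous φ) (c : Euc d) (R : ℝ) :
    MemLp φ 2 (volume.restrict (ball c R)) :=
  memLp_ball hφ c R

lemma weakGrad_add_test {c : Euc d} {R : ℝ} {g : Fin d → Euc d → ℝ}
    (hu : IsGlobalMinimizer u) (hg : HasWeakGrad (ball c R) u g) (hφ : ContDiff ℝ ∞ φ)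
    (hs : HasCompactSupport φ) (s : ℝ) :
    HasWeakGrad (ball c R) (fun x => u x + s * φ x) fun i x => g i x + s * pd i φ x := by
  obtain ⟨D, hD⟩ := lipschitzWith_of_test (hφ.const_smul s) (hs.smul_left (f := fun _ => s))
  have h := hg.add (hasWeakGrad_pd hD isBounded_ball) isBounded_ball (hu.memLp c R)
    (memLp_test (hφ.const_smul s).continuous c R)
  have e : ∀ i x, pd i (fun y => s * φ y) x = s * pd i φ x := fun i x => by
    rw [pd, fderiv_const_mul (hφ.differentiable (by simp)).differentiableAt]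
    simp [pd]
  simpa [e] using h

/-- The Laplacian is nonnegative. -/
theorem mu_nonneg (hu : IsGlobalMinimizer u) (hφ : ContDiff ℝ ∞ φ) (hs : HasCompactSupport φ)
    (h0 : ∀ x, 0 ≤ φ x) : 0 ≤ mu u φ := by
  obtain ⟨c, R, g, hsub, hg'⟩ := hu.setup hs
  have hg : HasWeakGrad (ball c R) u g := hg'.mono (ball_subset_ball (by linarith))
  have hψ : ∀ i, MemLp (pd i φ) 2 (volume.restrict (ball c R)) := fun i =>
    memLp_test (continuous_pd (hφ.of_le (by simp)) i) c R
  set I := ∑ i, ∫ x in ball c R, g i x * pd i φ x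
  set Q := ∫ x in ball c R, ∑ i, pd i φ x ^ 2
  have := isFiniteMeasure_restrict (isBounded_ball : Bornology.IsBounded (ball c R))
  have key : ∀ ε : ℝ, 0 < ε → 2 * I ≤ ε * Q := by
    intro ε hε
    have hP := (hu.weakGrad_add_test hg' hφ hs (-ε)).posPart (R := R) (by linarith)
      ((hu.memLp c _).add ((memLp_test hφ.continuous c _).const_mul (-ε)))
    have hle := hu.energyR_le' hg (v := fun x => max (u x + -ε * φ x) 0)
      (((hu.memLp c R).add ((memLp_test hφ.continuous c R).const_mul (-ε))).pos_part) hP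
      (Eventually.of_forall fun x => le_max_right _ _)
      ⟨tsupport φ, hs.isCompact, hsub, by
        filter_upwards [ae_restrict_of_ae hu.1] with x hx hxs
        rw [image_eq_zero_of_notMem_tsupport hxs, mul_zero, add_zero, max_eq_left hx]⟩
    have hp : posSet (fun x => max (u x + -ε * φ x) 0) ⊆ posSet u := fun x hx => by
      simp only [posSet, Set.mem_ofPred_eq] at hx ⊢
      rcases lt_max_iff.1 hx with h | h
      · nlinarith [h0 x]
      · exact absurd h (lt_irrefl _)
    have hm : (volume.restrict (ball c R)).real (posSet fun x => max (u x + -ε * φ x) 0) ≤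
        (volume.restrict (ball c R)).real (posSet u) := measureReal_mono hp
    have hint : ∫ x in ball c R, ∑ i,
        {x | 0 < u x + -ε * φ x}.indicator (fun x => g i x + -ε * pd i φ x) x ^ 2 ≤
        ∫ x in ball c R, ∑ i, (g i x + -ε * pd i φ x) ^ 2 :=
      integral_mono (integrableOn_sum_sq hP.1)
        (integrableOn_sum_sq fun i => (hg.1 i).add ((hψ i).const_mul (-ε))) fun x =>
        Finset.sum_le_sum fun i _ => by
          by_cases hx : x ∈ {x | 0 < u x + -ε * φ x}
          · rw [Set.indicator_of_mem hx]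
          · rw [Set.indicator_of_notMem hx]; simp [sq_nonneg]
    rw [integral_sq_add hg.1 hψ (-ε)] at hint
    simp only [energyR, Pi.add_apply] at hle
    nlinarith
  have hQ : 0 ≤ Q := integral_nonneg fun _ => Finset.sum_nonneg fun _ _ => sq_nonneg _
  have hI : I ≤ 0 := le_of_forall_pos_le_add fun δ hδ => by
    have := key (δ / (Q + 1)) (by positivity)
    have h2 : δ / (Q + 1) * Q ≤ δ := by
      rw [div_mul_eq_mul_div, div_le_iff₀ (by positivity)]; nlinarith
    linarith
  rw [hu.mu_eq hg hφ hs hsub]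
  linarith

/-- The Laplacian is bounded by gradient and support of the test function. -/
theorem mu_le (hu : IsGlobalMinimizer u) (hφ : ContDiff ℝ ∞ φ) (hs : HasCompactSupport φ)
    (h0 : ∀ x, 0 ≤ φ x) {ε : ℝ} (hε : 0 < ε) :
    mu u φ ≤ ε / 2 * (∫ x, ∑ i, pd i φ x ^ 2) + volume.real (tsupport φ) / (2 * ε) := by
  obtain ⟨c, R, g, hsub, hg'⟩ := hu.setup hs
  have hg : HasWeakGrad (ball c R) u g := hg'.mono (ball_subset_ball (by linarith))
  have hψ : ∀ i, MemLp (pd i φ) 2 (volume.restrict (ball c R)) := fun i =>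
    memLp_test (continuous_pd (hφ.of_le (by simp)) i) c R
  have := isFiniteMeasure_restrict (isBounded_ball : Bornology.IsBounded (ball c R))
  have hle := hu.energyR_le' hg (v := fun x => u x + ε * φ x)
    ((hu.memLp c R).add ((memLp_test hφ.continuous c R).const_mul ε))
    (hu.weakGrad_add_test hg hφ hs ε)
    (by
      filter_upwards [ae_restrict_of_ae hu.1] with x hx
      have := h0 x
      positivity)
    ⟨tsupport φ, hs.isCompact, hsub, Eventually.of_forall fun x hx => by
      simp [image_eq_zero_of_notMem_tsupport hx]⟩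
  have hp : posSet (fun x => u x + ε * φ x) ⊆ posSet u ∪ tsupport φ := fun x hx => by
    by_cases hxs : x ∈ tsupport φ
    · exact Or.inr hxs
    · exact Or.inl (by simpa [posSet, image_eq_zero_of_notMem_tsupport hxs] using hx)
  have hm : (volume.restrict (ball c R)).real (posSet fun x => u x + ε * φ x) ≤
      (volume.restrict (ball c R)).real (posSet u) + volume.real (tsupport φ) :=
    (measureReal_mono hp).trans ((measureReal_union_le _ _).trans (add_le_add le_rfl (by
      rw [measureReal_restrict_apply hs.isCompact.measurableSet]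
      exact measureReal_mono Set.inter_subset_left hs.isCompact.measure_lt_top.ne)))
  have hQ : ∫ x in ball c R, ∑ i, pd i φ x ^ 2 = ∫ x, ∑ i, pd i φ x ^ 2 :=
    setIntegral_eq_integral_of_forall_compl_eq_zero fun x hx =>
      Finset.sum_eq_zero fun i _ => by
        rw [pd_eq_zero_of_eventually (notMem_tsupport_iff_eventuallyEq.1 fun h => hx (hsub h))]
        ring
  simp only [energyR, integral_sq_add hg.1 hψ ε, hQ] at hle
  rw [hu.mu_eq hg hφ hs hsub, ← sub_nonneg]
  set I := ∑ i, ∫ x in ball c R, g i x * pd i φ x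
  set Q := ∫ x, ∑ i, pd i φ x ^ 2
  set V := volume.real (tsupport φ)
  have h1 : 0 ≤ 2 * ε * I + ε ^ 2 * Q + V := by linarith
  have e : ε / 2 * Q + V / (2 * ε) - -I = (2 * ε * I + ε ^ 2 * Q + V) / (2 * ε) := by
    field_simp
    ring
  rw [e]
  positivity

/-- The Laplacian vanishes where the minimizer stays positive. -/
theorem mu_eq_zero (hu : IsGlobalMinimizer u) (hφ : ContDiff ℝ ∞ φ) (hs : HasCompactSupport φ)
    {m : ℝ} (hm : 0 < m) (hpos : ∀ᵐ x, x ∈ tsupport φ → m ≤ u x) : mu u φ = 0 := by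
  obtain ⟨c, R, g, hsub, hg'⟩ := hu.setup hs
  have hg : HasWeakGrad (ball c R) u g := hg'.mono (ball_subset_ball (by linarith))
  have hψ : ∀ i, MemLp (pd i φ) 2 (volume.restrict (ball c R)) := fun i =>
    memLp_test (continuous_pd (hφ.of_le (by simp)) i) c R
  obtain ⟨P, hP⟩ := hφ.continuous.bounded_above_of_compact_support hs
  set I := ∑ i, ∫ x in ball c R, g i x * pd i φ x
  set Q := ∫ x in ball c R, ∑ i, pd i φ x ^ 2
  have hQ : 0 ≤ Q := integral_nonneg fun _ => Finset.sum_nonneg fun _ _ => sq_nonneg _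
  have hP0 : 0 ≤ P := (norm_nonneg _).trans (hP 0)
  have key : ∀ s : ℝ, |s| * (P + 1) < m → 0 ≤ 2 * s * I + s ^ 2 * Q := by
    intro s hs'
    have hv : ∀ᵐ x ∂volume.restrict (ball c R),
        0 ≤ u x + s * φ x ∧ (0 < u x + s * φ x ↔ 0 < u x) := by
      filter_upwards [ae_restrict_of_ae hu.1, ae_restrict_of_ae hpos] with x hx hxm
      by_cases hxs : x ∈ tsupport φ
      · have h1 := hxm hxs
        have h2 : |s * φ x| ≤ |s| * (P + 1) := by
          rw [abs_mul]
          exact mul_le_mul_of_nonneg_left (by linarith [hP x, Real.norm_eq_abs (φ x)]) (abs_nonneg _)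
        have h3 := abs_le.1 h2
        exact ⟨by linarith, iff_of_true (by linarith) (by linarith)⟩
      · simp [image_eq_zero_of_notMem_tsupport hxs, hx]
    have hle := hu.energyR_le' hg (v := fun x => u x + s * φ x)
      ((hu.memLp c R).add ((memLp_test hφ.continuous c R).const_mul s))
      (hu.weakGrad_add_test hg hφ hs s) (hv.mono fun x hx => hx.1)
      ⟨tsupport φ, hs.isCompact, hsub, Eventually.of_forall fun x hx => by
        simp [image_eq_zero_of_notMem_tsupport hx]⟩
    have e : (volume.restrict (ball c R)).real (posSet fun x => u x + s * φ x) =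
        (volume.restrict (ball c R)).real (posSet u) :=
      measureReal_congr (hv.mono fun x hx => propext hx.2)
    simp only [energyR, integral_sq_add hg.1 hψ s, e] at hle
    linarith
  have hI : I = 0 := by
    by_contra hne
    set s := -(I / (|I| + 1)) * min (m / (P + 2)) (1 / (Q + 1)) with hsdef
    have hmin : 0 < min (m / (P + 2)) (1 / (Q + 1)) := by positivity
    have h1 : |s| ≤ min (m / (P + 2)) (1 / (Q + 1)) * (|I| / (|I| + 1)) := by
      rw [hsdef, abs_mul, abs_neg, abs_div, abs_of_pos hmin,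
        abs_of_pos (by positivity : 0 < |I| + 1), mul_comm]
    have h2 : |I| / (|I| + 1) ≤ 1 := by rw [div_le_one (by positivity)]; linarith
    have h3 : |s| ≤ m / (P + 2) := h1.trans ((mul_le_of_le_one_right hmin.le h2).trans (min_le_left _ _))
    have h4 : |s| * (P + 2) ≤ m := by rwa [← le_div_iff₀ (by positivity)]
    have hsne : s ≠ 0 := by
      rw [hsdef]
      exact mul_ne_zero (neg_ne_zero.2 (div_ne_zero hne (by positivity))) hmin.ne'
    have := key s (by nlinarith [abs_pos.2 hsne])
    have h5 : s * I = -(min (m / (P + 2)) (1 / (Q + 1))) * (I ^ 2 / (|I| + 1)) := by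
      rw [hsdef]; ring
    have h6 : s ^ 2 * Q ≤ min (m / (P + 2)) (1 / (Q + 1)) * (I ^ 2 / (|I| + 1)) := by
      have hb : min (m / (P + 2)) (1 / (Q + 1)) * Q ≤ 1 := by
        have := mul_le_mul_of_nonneg_right (min_le_right (m / (P + 2)) (1 / (Q + 1))) hQ
        rw [div_mul_eq_mul_div, one_mul] at this
        exact this.trans (div_le_one (by positivity) |>.2 (by linarith))
      have hc : I ^ 2 / (|I| + 1) ^ 2 ≤ I ^ 2 / (|I| + 1) :=
        div_le_div_of_nonneg_left (sq_nonneg _) (by positivity)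
          (le_self_pow₀ (by linarith [abs_nonneg I]) two_ne_zero)
      calc s ^ 2 * Q = min (m / (P + 2)) (1 / (Q + 1)) *
            (min (m / (P + 2)) (1 / (Q + 1)) * Q) * (I ^ 2 / (|I| + 1) ^ 2) := by
            rw [hsdef, mul_pow, neg_sq, div_pow]; ring
        _ ≤ min (m / (P + 2)) (1 / (Q + 1)) * 1 * (I ^ 2 / (|I| + 1)) := by gcongr
        _ = _ := by ring
    have h7 : 0 < min (m / (P + 2)) (1 / (Q + 1)) * (I ^ 2 / (|I| + 1)) :=
      mul_pos hmin (div_pos (by positivity) (by positivity))
    nlinarith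
  rw [hu.mu_eq hg hφ hs hsub]
  exact neg_eq_zero.2 hI

end IsGlobalMinimizer

end Vale.Agent.P098
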